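import Vale.Agent.P092.H890.PnMul
import Vale.Agent.P092.H437.GoodP

/-!
P092, TEAM N (helper890): density of the basic functions (`H437.EE`; locally constant functions).
-/

set_option linter.all false

open scoped BigOperators Topology LinearAlgebra.Projectivization Matrix
open Filter Set

namespace Vale.Agent.P092.H890

open Vale.Agent.P092.H820 (pj pj_surj pj_continuous pj_eq pj_open pj_oq wd pj_eq_iff)

section arch

variable {k : Type} [NontriviallyNormedField k] [ProperSpace k] {m : Type} [Fintype m]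

theorem dense_adjE (κ : k →+* ℂ) (hκ : ∀ z, ‖κ z‖ = ‖z‖) :
    Dense (Algebra.adjoin ℂ {f : C(ℙ k (m → k), ℂ) | ∃ p q, f = E κ hκ p q} :
      Set C(ℙ k (m → k), ℂ)) := by
  classical
  set s : Set C(ℙ k (m → k), ℂ) := {f | ∃ p q, f = E κ hκ p q} with hs
  have hstar : star s ⊆ s := by
    intro f hf
    obtain ⟨p, q, h⟩ := (Set.mem_star.1 hf)
    refine ⟨q, p, ?_⟩
    rw [← E_star κ hκ p q, ← h, star_star]
  let A : StarSubalgebra ℂ C(ℙ k (m → k), ℂ) := StarAlgebra.adjoin ℂ s
  have hA : ∀ f ∈ A, f ∈ Algebra.adjoin ℂ s := by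
    intro f hf
    have : f ∈ A.toSubalgebra := hf
    rw [StarAlgebra.adjoin_toSubalgebra] at this
    have e : s ∪ star s = s := Set.union_eq_left.2 hstar
    rwa [e] at this
  have hsep : A.toSubalgebra.SeparatesPoints := by
    intro x y hxy
    obtain ⟨v, rfl⟩ := pj_surj x
    obtain ⟨w, rfl⟩ := pj_surj y
    by_contra hc
    push Not at hc
    have hE : ∀ p q, E κ hκ p q (pj k m v) = E κ hκ p q (pj k m w) := by
      intro p q
      refine hc _ ⟨E κ hκ p q, ?_, rfl⟩
      exact StarAlgebra.subset_adjoin ℂ s ⟨p, q, rfl⟩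
    apply hxy
    rw [pj_eq_iff]
    obtain ⟨q, hq⟩ : ∃ i, v.1 i ≠ 0 := by
      by_contra hc
      push Not at hc
      exact v.2 (funext hc)
    have hv0 : ((sq v.1 : ℝ) : ℂ) ≠ 0 := by exact_mod_cast (sq_pos v.2).ne'
    have hw0 : ((sq w.1 : ℝ) : ℂ) ≠ 0 := by exact_mod_cast (sq_pos w.2).ne'
    have hκ0 : ∀ z, κ z = 0 → z = 0 := fun z hz => by
      have := hκ z
      rw [hz, norm_zero] at this
      exact norm_eq_zero.1 this.symm
    have hvq : (starRingEnd ℂ) (κ (v.1 q)) ≠ 0 := by
      intro h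
      rw [map_eq_zero] at h
      exact hq (hκ0 _ h)
    have h1 : ∀ p, κ (v.1 p) * (starRingEnd ℂ) (κ (v.1 q)) * (sq w.1 : ℂ) =
        κ (w.1 p) * (starRingEnd ℂ) (κ (w.1 q)) * (sq v.1 : ℂ) := by
      intro p
      have := hE p q
      rw [E_apply, E_apply, div_eq_div_iff hv0 hw0] at this
      exact this
    have hne : (starRingEnd ℂ) (κ (v.1 q)) * (sq w.1 : ℂ) ≠ 0 := mul_ne_zero hvq hw0
    have h2 : ∀ p r, κ (v.1 p * w.1 r - v.1 r * w.1 p) = 0 := by
      intro p r
      rw [map_sub, map_mul, map_mul]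
      refine (mul_eq_zero.1 ?_).resolve_right hne
      linear_combination (κ (w.1 r)) * h1 p - (κ (w.1 p)) * h1 r
    ext ⟨p, r⟩
    exact hκ0 _ (h2 p r)
  have h := ContinuousMap.starSubalgebra_topologicalClosure_eq_top_of_separatesPoints A hsep
  have hd : Dense (A : Set C(ℙ k (m → k), ℂ)) := by
    intro f
    have : f ∈ A.topologicalClosure := by
      rw [h]
      trivial
    exact this
  exact hd.mono hA

lemma E_eq_EE [DecidableEq m] {κ : k →+* ℂ} (hκ : ∀ z, ‖κ z‖ = ‖z‖) (p q : m) :
    E κ hκ p q = H437.EE hκ p q := by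
  ext y
  obtain ⟨v, rfl⟩ := pj_surj y
  rw [E_apply]
  have := H437.EE_mk hκ p q v.1 v.2
  refine Eq.trans ?_ this.symm
  simp [H437.Ef, sq]

/-- the algebra generated by the functions `H437.EE` is dense -/
theorem dense_adjEE [DecidableEq m] {κ : k →+* ℂ} (hκ : ∀ z, ‖κ z‖ = ‖z‖) :
    Dense (Algebra.adjoin ℂ {f : C(ℙ k (m → k), ℂ) | ∃ p q, f = H437.EE hκ p q} :
      Set C(ℙ k (m → k), ℂ)) := by
  have h := dense_adjE (m := m) κ hκ
  simp only [E_eq_EE hκ] at h
  exact h

end arch

section ultra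

variable {k : Type} [NontriviallyNormedField k] [ProperSpace k] [IsUltrametricDist k] {m : Type}
  [Fintype m]

/-- locally constant functions are dense, `k` nonarchimedean -/
theorem dense_lc : Dense {f : C(ℙ k (m → k), ℂ) | IsLocallyConstant f} := by
  classical
  let A : StarSubalgebra ℂ C(ℙ k (m → k), ℂ) :=
    { carrier := {f | IsLocallyConstant f}
      mul_mem' := fun {f g} hf hg => IsLocallyConstant.mul hf hg
      add_mem' := fun {f g} hf hg => IsLocallyConstant.add hf hg
      algebraMap_mem' := fun r => IsLocallyConstant.const r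
      star_mem' := fun {f} hf => IsLocallyConstant.comp hf star }
  have hsep : A.toSubalgebra.SeparatesPoints := by
    intro x y hxy
    obtain ⟨U, hU, hx, hy⟩ := exists_isClopen_of_totally_separated hxy
    let g0 : LocallyConstant (ℙ k (m → k)) ℂ := LocallyConstant.charFn ℂ hU
    let g : C(ℙ k (m → k), ℂ) := ⟨g0, g0.isLocallyConstant.continuous⟩
    refine ⟨g, ⟨g, g0.isLocallyConstant, rfl⟩, ?_⟩
    have h1 : g x = 1 := by
      change g0 x = 1
      simp [g0, LocallyConstant.coe_charFn, hx]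
    have h2 : g y = 0 := by
      have hy' : y ∉ U := hy
      change g0 y = 0
      simp [g0, LocallyConstant.coe_charFn, hy']
    rw [h1, h2]
    exact one_ne_zero
  have h := ContinuousMap.starSubalgebra_topologicalClosure_eq_top_of_separatesPoints A hsep
  intro f
  have : f ∈ A.topologicalClosure := by
    rw [h]
    trivial
  exact this

end ultra

end Vale.Agent.P092.H890
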