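import Vale.Agent.P092.H589.K2v
import Vale.Agent.P092.H466.Pvm2

/-!
P092, TEAM N (helper890): continuous functions are operators of the calculus (input of NJB).
-/

set_option linter.all false

open scoped InnerProductSpace
open Topology TopologicalSpace ContinuousLinearMap

namespace Vale.Agent.P092.H890.Opf

open Vale.Agent.P092.H466
open Vale.Agent.P092.H589.K2 (Opf)

/-- `φ F = ∫ F d(pv φ)` in the finite form of `H589.K2.Opf` (`H914.OpfStmt`) -/
theorem opf_of (K Y : Type) [NormedAddCommGroup K] [InnerProductSpace ℂ K] [CompleteSpace K]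
    [TopologicalSpace Y] [CompactSpace Y] [MetrizableSpace Y] [MeasurableSpace Y] [BorelSpace Y]
    (φ : C(Y, ℂ) →⋆ₐ[ℂ] (K →L[ℂ] K)) (F : C(Y, ℂ)) : Opf (pv φ) F (φ F) where
  comm A _ := phi_pv_comm φ F A
  approx A hA a δ hδ h v := by
    have h1 : φ F (pv φ A v) - a • pv φ A v = φ (F - a • 1) (pv φ A v) := by
      rw [map_sub, map_smul, map_one, sub_apply, smul_apply, one_apply_eq_self]
    rw [h1]
    refine norm_phi_pv_le φ hδ (fun x hx => ?_) v
    have h2 : (F - a • 1 : C(Y, ℂ)) x = F x - a := by simp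
    rw [h2]
    exact h x hx

end Vale.Agent.P092.H890.Opf
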