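import Vale.Agent.P092.H890.W0Def
import Vale.Agent.P092.H790.CTN
import Vale.Agent.P092.H124.KL1
import Vale.Agent.P092.H121.Dual

/-!
P092, TEAM N (helper890), block [N-W0], second half: the word count implies the word lemma.
-/

set_option linter.all false

open scoped InnerProductSpace ENNReal LinearAlgebra.Projectivization
open Filter Topology ContinuousLinearMap MeasureTheory TopologicalSpace

namespace Vale.Agent.P092.H890.W0F

open Vale.Agent.P092.SD (Ms UC)
open Vale.Agent.P092.RC (Cm TRN Moore GG PG YY y0 ct)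
open Vale.Agent.P092.H790.CTA (ORBG SIZEG)
open Vale.Agent.P092.H790.CT (PicL)
open Vale.Agent.P092.SN

section geo

variable {k : Type} [NontriviallyNormedField k] {N : ℕ}

theorem exists_rep (x : YY k N) : ∃ (v : Fin (N + 1) → k) (hv : v ≠ 0),
    x = Projectivization.mk k v hv := ⟨x.rep, x.rep_nonzero, (Projectivization.mk_rep x).symm⟩

theorem mv_ne (g : GG k N) {v : Fin (N + 1) → k} (hv : v ≠ 0) : g.1.mulVec v ≠ 0 := by
  intro h0
  have h1 : g⁻¹.1.mulVec (g.1.mulVec v) = v := by
    rw [Matrix.mulVec_mulVec]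
    have h2 : g⁻¹.1 * g.1 = 1 := congrArg Subtype.val (inv_mul_cancel g)
    rw [h2, Matrix.one_mulVec]
  rw [h0, Matrix.mulVec_zero] at h1
  exact hv h1.symm

theorem mk_smul (g : GG k N) (v : Fin (N + 1) → k) (hv : v ≠ 0) :
    g • (Projectivization.mk k v hv : YY k N) = Projectivization.mk k (g.1.mulVec v) (mv_ne g hv) :=
  rfl

theorem eq_of_scalar {g h : GG k N} {c : k} (hc : g.1 = c • h.1) (x : YY k N) : g • x = h • x := by
  obtain ⟨v, hv, rfl⟩ := exists_rep x
  rw [mk_smul, mk_smul, Projectivization.mk_eq_mk_iff']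
  exact ⟨c, by rw [hc, Matrix.smul_mulVec]⟩

/-- the action of `q γ⁻¹` -/
theorem act_inv {Γ : Type} [Group Γ] {q : Γ → GG k N} (hq : PH q) (γ : Γ) (f : CY k N) :
    act (ct (q γ⁻¹)) f = act (ct (q γ)⁻¹) f := by
  have hp : ∀ γ γ' (x : YY k N), ct (q (γ * γ')) • x = ct (q γ) • ct (q γ') • x := by
    intro γ γ' x
    obtain ⟨c, hc⟩ := H790.CTN.ph_ct hq γ γ'
    rw [← mul_smul]
    exact eq_of_scalar hc x
  have h1 : ∀ x : YY k N, ct (q 1) • x = x := by
    intro x
    have h2 := hp 1 1 x
    rw [mul_one] at h2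
    exact (MulAction.injective _ h2).symm
  ext x
  change f ((ct (q γ⁻¹))⁻¹ • x) = f ((ct (q γ)⁻¹)⁻¹ • x)
  congr 1
  rw [inv_smul_eq_iff, ← map_inv, inv_inv, ← hp, inv_mul_cancel, h1]

theorem fix_of {x : GG k N} {v : Fin (N + 1) → k} (hv : v ≠ 0) {c : k}
    (h : x.1.transpose.mulVec v = c • v) :
    ct x • (Projectivization.mk k v hv : YY k N) = Projectivization.mk k v hv := by
  rw [mk_smul]
  symm
  rw [Projectivization.mk_eq_mk_iff']
  refine ⟨c, ?_⟩
  have h1 : (ct x).1 = (x⁻¹).1.transpose := rfl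
  rw [h1, ← Matrix.mulVec_smul, ← h, Matrix.mulVec_mulVec, ← Matrix.transpose_mul]
  have h2 : x.1 * x⁻¹.1 = 1 := congrArg Subtype.val (mul_inv_cancel x)
  rw [h2, Matrix.transpose_one, Matrix.one_mulVec]

theorem y0_inc {v : Fin (N + 1) → k} (hv : v ≠ 0)
    (h : inc (y0 : YY k N) (Projectivization.mk k v hv)) :
    v 0 = 0 := by
  have h1 : (Pi.single 0 1 : Fin (N + 1) → k) ⬝ᵥ v = 0 := h
  rwa [single_dotProduct, one_mul] at h1

theorem bw_fix (w : kˣ) {M : YY k N} (hM : inc (y0 : YY k N) M) :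
    ct (bw w : GG k N) • M = M := by
  obtain ⟨v, hv, rfl⟩ := exists_rep M
  have h0 := y0_inc hv hM
  refine fix_of hv (c := (w : k)) ?_
  have h1 : (bw w : GG k N).1 = Matrix.diagonal fun i : Fin (N + 1) =>
    if i = 0 then ((w⁻¹ : kˣ) : k) ^ N else (w : k) := rfl
  rw [h1, Matrix.diagonal_transpose]
  ext i
  rw [Matrix.mulVec_diagonal, Pi.smul_apply, smul_eq_mul]
  split_ifs with hi
  · rw [hi, h0, mul_zero, mul_zero]
  · rfl

theorem un_fix {j : Fin (N + 1)} (hj : (0 : Fin (N + 1)) ≠ j) (s : k) {M : YY k N}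
    (hM : inc (y0 : YY k N) M) : ct (un hj s) • M = M := by
  obtain ⟨v, hv, rfl⟩ := exists_rep M
  have h0 := y0_inc hv hM
  refine fix_of hv (c := (1 : k)) ?_
  have h1 : (un hj s : GG k N).1 = Matrix.transvection 0 j s := rfl
  rw [h1, one_smul, Matrix.transvection, Matrix.transpose_add, Matrix.transpose_one,
    Matrix.transpose_single, Matrix.add_mulVec, Matrix.one_mulVec]
  ext i
  rw [Pi.add_apply, Matrix.single_mulVec]
  simp [h0]

theorem conj_fix {g x : GG k N} (hx : ∀ M : YY k N, inc (y0 : YY k N) M → ct x • M = M)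
    {M : YY k N} (hM : inc (g • (y0 : YY k N)) M) : ct (g * x * g⁻¹) • M = M := by
  have h1 : inc (y0 : YY k N) ((ct g)⁻¹ • M) := by
    have h2 := H121.orth_sl g⁻¹ (g • y0 : YY k N) M
    rw [inv_smul_smul, map_inv] at h2
    exact h2.2 hM
  rw [map_mul, map_mul, map_inv, mul_smul, mul_smul, hx _ h1, smul_inv_smul]

/-- room between the support of `u` and the incidence with the support of `f` -/
theorem exists_room [ProperSpace k] {u f : CY k N} (hn : NInc (tsupport u) (tsupport f)) :
    ∃ A : Set (YY k N), IsOpen A ∧ tsupport u ⊆ A ∧ NInc (closure A) (tsupport f) := by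
  obtain ⟨U, hU, huU, hUn⟩ : ∃ U : Set (YY k N), IsOpen U ∧ tsupport u ⊆ U ∧
      NInc U (tsupport f) := by
    have h1 : (tsupport u) ×ˢ (tsupport f) ⊆ {p : YY k N × YY k N | inc p.1 p.2}ᶜ := by
      rintro ⟨x, l⟩ ⟨hx, hl⟩
      exact hn x hx l hl
    obtain ⟨U, V, hU, hV, h2, h3, h4⟩ := generalized_tube_lemma
      (isClosed_tsupport u).isCompact (isClosed_tsupport f).isCompact
      (H644.Gr3.orth_closed (k := k) (m := N)).isOpen_compl h1
    exact ⟨U, hU, h2, fun x hx l hl => h4 (Set.mk_mem_prod hx (h3 hl))⟩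
  obtain ⟨A, hA, huA, hAU⟩ := normal_exists_closure_subset (isClosed_tsupport u) hU huU
  exact ⟨A, hA, huA, fun x hx l hl => hUn x (hAU hx) l hl⟩

end geo

section words

variable {k : Type} [NontriviallyNormedField k] [ProperSpace k] {N : ℕ} {K : Type}
  [NormedAddCommGroup K] [InnerProductSpace ℂ K] [CompleteSpace K]

/-- a word in the calculi `F` -/
noncomputable def wd (F : YY k N → (CY k N →⋆ₐ[ℂ] (K →L[ℂ] K))) (L : List (YY k N × CY k N)) :
    K →L[ℂ] K := (L.map fun p => F p.1 p.2).prod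

theorem wd_cons (F : YY k N → (CY k N →⋆ₐ[ℂ] (K →L[ℂ] K))) (p : YY k N × CY k N)
    (L : List (YY k N × CY k N)) : wd F (p :: L) = F p.1 p.2 * wd F L := by
  rw [wd, List.map_cons, List.prod_cons]
  rfl

theorem wd_append (F : YY k N → (CY k N →⋆ₐ[ℂ] (K →L[ℂ] K)))
    (L L' : List (YY k N × CY k N)) : wd F (L ++ L') = wd F L * wd F L' := by
  rw [wd, List.map_append, List.prod_append]
  rfl

theorem wd_single (F : YY k N → (CY k N →⋆ₐ[ℂ] (K →L[ℂ] K))) (p : YY k N × CY k N) :
    wd F [p] = F p.1 p.2 := by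
  rw [wd, List.map_singleton, List.prod_singleton]

/-- the adjoint word -/
noncomputable def rv (L : List (YY k N × CY k N)) : List (YY k N × CY k N) :=
  (L.map fun p => (p.1, star p.2)).reverse

theorem rv_cons (p : YY k N × CY k N) (L : List (YY k N × CY k N)) :
    rv (p :: L) = rv L ++ [(p.1, star p.2)] := by
  rw [rv, List.map_cons, List.reverse_cons]
  rfl

theorem adj_wd (F : YY k N → (CY k N →⋆ₐ[ℂ] (K →L[ℂ] K))) (L : List (YY k N × CY k N)) :
    adjoint (wd F L) = wd F (rv L) := by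
  induction L with
  | nil =>
    change adjoint (1 : K →L[ℂ] K) = 1
    rw [← star_eq_adjoint, star_one]
  | cons p L ih =>
    rw [wd_cons, rv_cons, wd_append, wd_single, ← ih, ← star_eq_adjoint, ← star_eq_adjoint,
      star_mul, ← map_star]

/-- translated word -/
noncomputable def tw (g : GG k N) (L : List (YY k N × CY k N)) : List (YY k N × CY k N) :=
  L.map fun p => (p.1, act g p.2)

variable {Γ : Type} [Group Γ] {lam : Γ →* (K →L[ℂ] K)}
  {F : YY k N → (CY k N →⋆ₐ[ℂ] (K →L[ℂ] K))}

theorem wd_lam {t : Γ → GG k N}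
    (cov : ∀ γ x f, lam γ * F x f * lam γ⁻¹ = F x (act (t γ) f)) (γ : Γ)
    (L : List (YY k N × CY k N)) (ξ : K) : wd F L (lam γ ξ) = lam γ (wd F (tw (t γ⁻¹) L) ξ) := by
  induction L with
  | nil => rfl
  | cons p L ih =>
    have e : tw (t γ⁻¹) (p :: L) = (p.1, act (t γ⁻¹) p.2) :: tw (t γ⁻¹) L := rfl
    rw [e, wd_cons, wd_cons]
    change F p.1 p.2 (wd F L (lam γ ξ)) = lam γ (F p.1 (act (t γ⁻¹) p.2) (wd F (tw (t γ⁻¹) L) ξ))
    rw [ih]
    exact H124.KL.cov_apply (t := fun γ f => act (t γ) f) (fun γ f => cov γ p.1 f) γ p.2 _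

end words

section dense

variable {k : Type} [NontriviallyNormedField k] [ProperSpace k] {N : ℕ} {K : Type}
  [NormedAddCommGroup K] [InnerProductSpace ℂ K] [CompleteSpace K]
  {F : YY k N → (CY k N →⋆ₐ[ℂ] (K →L[ℂ] K))} {D : Set (CY k N)} {c : YY k N}

theorem calc_cont (b : CY k N →⋆ₐ[ℂ] (K →L[ℂ] K)) : Continuous b := by
  refine AddMonoidHomClass.continuous_of_bound b 1 fun f => ?_
  rw [one_mul]
  exact NonUnitalStarAlgHom.norm_apply_le b f

variable (F D c) in
/-- the algebra of the words with letters in `star D` -/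
noncomputable def A0 : Subalgebra ℂ (K →L[ℂ] K) :=
  Algebra.adjoin ℂ {T | ∃ M f, inc c M ∧ star f ∈ D ∧ T = F M f}

theorem letter_mem (hD : closure (Submodule.span ℂ D : Set (CY k N)) = Set.univ) {M : YY k N}
    (hM : inc c M) (f : CY k N) : F M f ∈ (A0 F D c).topologicalClosure := by
  have h1 : ∀ g ∈ Submodule.span ℂ D, F M (star g) ∈ A0 F D c := by
    intro g hg
    induction hg using Submodule.span_induction with
    | mem g hg => exact Algebra.subset_adjoin ⟨M, star g, hM, by rwa [star_star], rfl⟩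
    | zero =>
      rw [star_zero, map_zero]
      exact zero_mem _
    | add x y _ _ hx hy =>
      rw [star_add, map_add]
      exact add_mem hx hy
    | smul a x _ hx =>
      rw [star_smul, map_smul]
      exact (A0 F D c).smul_mem hx _
  have h2 : Continuous fun g : CY k N => F M (star g) := (calc_cont (F M)).comp continuous_star
  have h3 : ∀ g : CY k N, F M (star g) ∈ closure (A0 F D c : Set (K →L[ℂ] K)) := by
    intro g
    have h4 : g ∈ closure (Submodule.span ℂ D : Set (CY k N)) := by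
      rw [hD]
      trivial
    exact map_mem_closure (f := fun g : CY k N => F M (star g)) h2 h4 h1
  have h5 := h3 (star f)
  rw [star_star] at h5
  exact h5

theorem wa_le (hD : closure (Submodule.span ℂ D : Set (CY k N)) = Set.univ) {T : K →L[ℂ] K}
    (hT : T ∈ WA F c) : T ∈ (A0 F D c).topologicalClosure := by
  have h1 : T ∈ (A0 F D c).topologicalClosure ∧ star T ∈ (A0 F D c).topologicalClosure := by
    induction hT using StarAlgebra.adjoin_induction with
    | mem x hx =>
      obtain ⟨M, f, hM, rfl⟩ := hx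
      refine ⟨letter_mem hD hM f, ?_⟩
      rw [← map_star]
      exact letter_mem hD hM _
    | algebraMap r =>
      refine ⟨Subalgebra.algebraMap_mem _ r, ?_⟩
      rw [← algebraMap_star_comm]
      exact Subalgebra.algebraMap_mem _ _
    | add x y _ _ hx hy => exact ⟨add_mem hx.1 hy.1, by rw [star_add]; exact add_mem hx.2 hy.2⟩
    | mul x y _ _ hx hy => exact ⟨mul_mem hx.1 hy.1, by rw [star_mul]; exact mul_mem hy.2 hx.2⟩
    | star x _ hx => exact ⟨hx.2, by rw [star_star]; exact hx.1⟩
  exact h1.1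

/-- to be killed on both sides is a property of the words -/
theorem kill {P Q : K →L[ℂ] K} (hD : closure (Submodule.span ℂ D : Set (CY k N)) = Set.univ)
    (h : ∀ L : List (YY k N × CY k N), (∀ p ∈ L, inc c p.1 ∧ star p.2 ∈ D) →
      P * wd F L * Q = 0) {T : K →L[ℂ] K} (hT : T ∈ WA F c) : P * T * Q = 0 := by
  let U : Submodule ℂ (K →L[ℂ] K) :=
    { carrier := {T | P * T * Q = 0}
      zero_mem' := by
        change P * 0 * Q = 0
        rw [mul_zero, zero_mul]
      add_mem' := fun {x y} hx hy => by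
        change P * (x + y) * Q = 0
        rw [mul_add, add_mul, show P * x * Q = 0 from hx, show P * y * Q = 0 from hy, add_zero]
      smul_mem' := fun a x hx => by
        change P * (a • x) * Q = 0
        rw [mul_smul_comm, smul_mul_assoc, show P * x * Q = 0 from hx, smul_zero] }
  have hU : IsClosed (U : Set (K →L[ℂ] K)) := by
    have h1 : Continuous fun T : K →L[ℂ] K => P * T * Q := by fun_prop
    exact isClosed_singleton.preimage h1
  have h2 : Subalgebra.toSubmodule (A0 F D c) ≤ U := by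
    rw [A0, Algebra.adjoin_eq_span, Submodule.span_le]
    intro x hx
    obtain ⟨l, hl, rfl⟩ := Submonoid.exists_list_of_mem_closure hx
    have h3 : ∃ L : List (YY k N × CY k N), (∀ p ∈ L, inc c p.1 ∧ star p.2 ∈ D) ∧
        l.prod = wd F L := by
      clear hx
      induction l with
      | nil => exact ⟨[], by simp, rfl⟩
      | cons y l ih =>
        obtain ⟨L, hL, hLe⟩ := ih fun z hz => hl z (List.mem_cons_of_mem _ hz)
        obtain ⟨M, f, hM, hf, rfl⟩ := hl y List.mem_cons_self
        refine ⟨(M, f) :: L, ?_, ?_⟩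
        · intro p hp
          rcases List.mem_cons.1 hp with rfl | hp
          · exact ⟨hM, hf⟩
          · exact hL p hp
        · rw [List.prod_cons, hLe, wd_cons]
    obtain ⟨L, hL, hLe⟩ := h3
    rw [hLe]
    exact h L hL
  have h4 := wa_le (F := F) hD hT
  exact (closure_minimal (s := (A0 F D c : Set (K →L[ℂ] K))) h2 hU) h4

end dense

section main

variable {k : Type} [NontriviallyNormedField k] [ProperSpace k] [MeasurableSpace k] [BorelSpace k]
  {μ : Measure k} [IsFiniteMeasureOnCompacts μ] [μ.IsOpenPosMeasure]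

theorem w0Stmt_of (h0 : NJWStmt k) : W0Stmt k μ := by
  intro N E Γ K _ _ _ _ _ _ w ι a a' π lam W Ω m q Z Ec F h
  obtain ⟨D, hD, hcount⟩ := h0 h.adm.hN
  intro c T hT M hM u f hn
  refine kill hD ?_ hT
  intro L hL
  obtain ⟨g, hg⟩ := MulAction.exists_smul_eq (GG k N) (y0 : YY k N) c
  obtain ⟨A, hA, huA, hAn⟩ := exists_room hn
  have hN := h.adm.hN
  have hj : (0 : Fin (N + 1)) ≠ ⟨1, by omega⟩ := Fin.ne_of_val_ne (by simp)
  -- commutation
  have hcom : ∀ x : GG k N, (∀ M : YY k N, inc (y0 : YY k N) M → ct x • M = M) →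
      Commute (wd F L * F M f) (π (ι (g * x * g⁻¹))) := by
    intro x hx
    have h1 : ∀ M' f', inc c M' → Commute (F M' f') (π (ι (g * x * g⁻¹))) := by
      intro M' f' hM'
      have h2 : a' (ι (g * x * g⁻¹)) • M' = M' := by
        rw [h.adm.comp']
        exact conj_fix hx (by rw [hg]; exact hM')
      have h3 := h.f.pcov (ι (g * x * g⁻¹)) M' f'
      rw [h2] at h3
      have h4 : π (ι (g * x * g⁻¹))⁻¹ * π (ι (g * x * g⁻¹)) = 1 := by
        rw [← map_mul, inv_mul_cancel, map_one]
      have h5 : F M' f' * π (ι (g * x * g⁻¹)) = π (ι (g * x * g⁻¹)) * F M' f' := by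
        conv_lhs => rw [← h3]
        rw [mul_assoc, h4, mul_one]
      exact h5
    have h2 : Commute (wd F L) (π (ι (g * x * g⁻¹))) := by
      clear hT
      induction L with
      | nil => exact Commute.one_left _
      | cons p L ih =>
        rw [wd_cons]
        exact (h1 p.1 p.2 (hL p List.mem_cons_self).1).mul_left
          (ih fun p hp => hL p (List.mem_cons_of_mem _ hp))
    exact h2.mul_left (h1 M f hM)
  have hB : Cm W (wd F L * F M f) := by
    have h1 : ∀ L : List (YY k N × CY k N), Cm W (wd F L) := by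
      intro L
      induction L with
      | nil => exact fun w _ => by rw [show wd F [] = 1 from rfl, one_mul, mul_one]
      | cons p L ih =>
        intro w hw
        rw [wd_cons, mul_assoc, ih w hw, ← mul_assoc, h.f.cm p.1 p.2 w hw, mul_assoc]
    intro w hw
    rw [mul_assoc, h.f.cm M f w hw, ← mul_assoc, h1 L w hw, mul_assoc]
  rw [mul_assoc, ← hg]
  refine H790.CTN.e_mul_zero (μ := μ) h hj hB (hcom _ fun M hM => bw_fix w hM)
    (fun s => hcom _ fun M hM => un_fix hj s hM) hA huA ?_
  intro R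
  have hns : NInc (closure A) (tsupport (star f)) := by
    have e : tsupport (star f) = tsupport f := by
      rw [tsupport, tsupport]
      congr 1
      ext x
      simp [Function.mem_support]
    rw [e]
    exact hAn
  obtain ⟨T', hT', C, d, hC⟩ := hcount q Z h.ud (F M)
    ((rv L).map fun p => (F p.1, p.2)) (by
      intro p hp
      obtain ⟨p', hp', rfl⟩ := List.mem_map.1 hp
      rw [rv, List.mem_reverse] at hp'
      obtain ⟨p'', hp'', rfl⟩ := List.mem_map.1 hp'
      exact (hL p'' hp'').2) R A (star f) hns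
  refine ⟨T', hT', C, d, fun J hJ S hS => ?_⟩
  have h1 := hC J hJ S hS Ω
  rw [h.pic.nΩ, one_pow, mul_one] at h1
  refine le_trans (le_of_eq (Finset.sum_congr rfl fun γ _ => ?_)) h1
  congr 1
  have e1 : adjoint (wd F L * F M f) = F M (star f) * wd F (rv L) := by
    rw [← adj_wd, ← star_eq_adjoint, star_mul, ← map_star, star_eq_adjoint]
  have e2 := wd_lam (lam := lam) (F := F) (t := fun γ => ct (q γ)) h.f.cov γ
    ((M, star f) :: rv L) Ω
  rw [e1, ← wd_cons F (M, star f) (rv L), e2, H790.CT.lam_norm (PicL.of_pic h.pic)]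
  have e3 : tw (ct (q γ⁻¹)) ((M, star f) :: rv L) =
      (M, act (ct (q γ)⁻¹) (star f)) :: (rv L).map fun p => (p.1, act (ct (q γ)⁻¹) p.2) := by
    rw [tw, List.map_cons]
    simp only [act_inv h.ph]
  rw [e3, wd_cons, wd, List.map_map, List.map_map]
  rfl

end main

end Vale.Agent.P092.H890.W0F
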