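import Vale.Agent.P092.H890.Cpt
import Vale.Agent.P092.H820.Pn

/-!
P092, TEAM N (helper890): the compactness lemma on projective spaces. `Ad f`: for every compact
set `Q` of matrices and every cut-off `ψ` on whose support the matrices of `Q` have no kernel, the
families `ψ [v] * f [T v]`, `T ∈ Q`, are multipliers. `Ad` functions form an algebra.
-/

set_option linter.all false

open scoped BigOperators Topology LinearAlgebra.Projectivization Matrix
open Filter Set

namespace Vale.Agent.P092.H890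

open Vale.Agent.P092.H820 (pj pj_surj pj_continuous pj_eq pj_open pj_oq wd pj_eq_iff)

/-- the compactness lemma, relational form -/
theorem cpt_rel {Y : Type*} [TopologicalSpace Y] [CompactSpace Y] [T2Space Y] {τ : Type*}
    [TopologicalSpace τ] {Q : Set τ} (hQ : IsCompact Q) (ψ : C(Y, ℂ))
    (R : τ → C(Y, ℂ) → Prop) (hR : ∀ T F, R T F → ∀ y, y ∉ tsupport ψ → F y = 0)
    (hloc : ∀ T₀ ∈ Q, ∀ y ∈ tsupport ψ, ∃ U ∈ 𝓝 T₀, ∃ V : Set Y, IsOpen V ∧ y ∈ V ∧
      ∃ C : ℝ, 0 ≤ C ∧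
      ∀ (K : Type) [NormedAddCommGroup K] [InnerProductSpace ℂ K] [CompleteSpace K]
        (lam : C(Y, ℂ) →⋆ₐ[ℂ] (K →L[ℂ] K)) (ι : Type) (S : Finset ι) (T : ι → τ)
        (F : ι → C(Y, ℂ)) (ρ : C(Y, ℂ)), (∀ y, ‖ρ y‖ ≤ 1) → tsupport ρ ⊆ V →
        (∀ k ∈ S, T k ∈ U) → (∀ k ∈ S, R (T k) (F k)) →
        Mult S (fun k => lam (F k * ρ)) C) :
    ∃ C : ℝ, 0 ≤ C ∧ ∀ (K : Type) [NormedAddCommGroup K] [InnerProductSpace ℂ K]
      [CompleteSpace K] (lam : C(Y, ℂ) →⋆ₐ[ℂ] (K →L[ℂ] K)) (ι : Type) (S : Finset ι) (T : ι → τ)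
      (F : ι → C(Y, ℂ)), (∀ k ∈ S, T k ∈ Q) → (∀ k ∈ S, R (T k) (F k)) →
      Mult S (fun k => lam (F k)) C := by
  classical
  let p : Set τ → Prop := fun s => ∃ C : ℝ, 0 ≤ C ∧ ∀ (K : Type) [NormedAddCommGroup K]
      [InnerProductSpace ℂ K] [CompleteSpace K] (lam : C(Y, ℂ) →⋆ₐ[ℂ] (K →L[ℂ] K)) (ι : Type)
      (S : Finset ι) (T : ι → τ) (F : ι → C(Y, ℂ)), (∀ k ∈ S, T k ∈ s) →
      (∀ k ∈ S, R (T k) (F k)) → Mult S (fun k => lam (F k)) C
  have main : p Q := by
    refine hQ.induction_on ?_ ?_ ?_ ?_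
    · refine ⟨0, le_rfl, ?_⟩
      intro K _ _ _ lam ι S T F hT _
      have : S = ∅ := by
        rw [Finset.eq_empty_iff_forall_notMem]
        exact fun k hk => (hT k hk).elim
      subst this
      exact ⟨le_rfl, fun B c hc hB x => by simp⟩
    · rintro s t hst ⟨C, hC, h⟩
      exact ⟨C, hC, fun K _ _ _ lam ι S T F hT => h K lam ι S T F fun k hk => hst (hT k hk)⟩
    · rintro s t ⟨C, hC, h⟩ ⟨D, hD, h'⟩
      refine ⟨C + D, by positivity, ?_⟩
      intro K _ _ _ lam ι S T F hT hF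
      have h1 := h K lam ι (S.filter fun k => T k ∈ s) T F
        (fun k hk => (Finset.mem_filter.1 hk).2) (fun k hk => hF k (Finset.mem_filter.1 hk).1)
      have h2 := h' K lam ι (S.filter fun k => ¬ T k ∈ s) T F
        (fun k hk => (hT k (Finset.mem_filter.1 hk).1).resolve_left (Finset.mem_filter.1 hk).2)
        (fun k hk => hF k (Finset.mem_filter.1 hk).1)
      refine ⟨by positivity, fun B c hc hB x => ?_⟩
      have hB1 : ∀ (q : ι → Prop) [DecidablePred q] x, ∑ k ∈ S.filter q, ‖B k x‖ ^ 2 ≤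
          c * ‖x‖ ^ 2 := fun q _ x => le_trans (Finset.sum_le_sum_of_subset_of_nonneg
            (Finset.filter_subset _ _) (fun _ _ _ => by positivity)) (hB x)
      rw [← Finset.sum_filter_add_sum_filter_not S (fun k => T k ∈ s)]
      have e1 := h1.2 B c hc (hB1 _) x
      have e2 := h2.2 B c hc (hB1 _) x
      have : c * C ^ 2 * ‖x‖ ^ 2 + c * D ^ 2 * ‖x‖ ^ 2 ≤ c * (C + D) ^ 2 * ‖x‖ ^ 2 := by
        have : 0 ≤ c * (2 * C * D) * ‖x‖ ^ 2 := by positivity
        nlinarith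
      linarith
    · intro T₀ hT₀
      have hloc' := hloc T₀ hT₀
      choose! U hU V hVo hyV C hC hM using hloc'
      obtain ⟨t, ht, htc⟩ := (isClosed_tsupport (ψ : Y → ℂ)).isCompact.elim_nhds_subcover V
        (fun y hy => (hVo y hy).mem_nhds (hyV y hy))
      have hcov : tsupport (ψ : Y → ℂ) ⊆ ⋃ i : t, V i := by
        intro y hy
        have := htc hy
        simp only [mem_iUnion] at this ⊢
        obtain ⟨i, hi, hyi⟩ := this
        exact ⟨⟨i, hi⟩, hyi⟩
      obtain ⟨ρ, hρ⟩ := PartitionOfUnity.exists_isSubordinate_of_locallyFinite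
        (isClosed_tsupport (ψ : Y → ℂ)) (fun i : t => V i) (fun i => hVo i (ht i i.2))
        (locallyFinite_of_finite _) hcov
      let ρc : t → C(Y, ℂ) := fun i => ⟨fun y => (ρ i y : ℂ), by fun_prop⟩
      refine ⟨_, mem_nhdsWithin_of_mem_nhds ((Filter.biInter_finset_mem t).2
        fun i hi => hU i (ht i hi)), ∑ i : t, C i,
        Finset.sum_nonneg fun i _ => hC i (ht i i.2), ?_⟩
      intro K _ _ _ lam ι S T F hT hF
      have h1 : Mult S (fun k => ∑ i : t, lam (F k * ρc i)) (∑ i : t, C i) := by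
        refine Mult.sum Finset.univ fun i _ => ?_
        refine hM i (ht i i.2) K lam ι S T F (ρc i) ?_ ?_ ?_ hF
        · intro y
          simp only [ρc, ContinuousMap.coe_mk, Complex.norm_real, Real.norm_eq_abs]
          rw [abs_of_nonneg (ρ.nonneg i y)]
          exact ρ.le_one i y
        · refine Subset.trans ?_ (hρ i)
          refine closure_mono ?_
          intro y hy
          simp only [Function.mem_support, ρc, ContinuousMap.coe_mk, ne_eq,
            Complex.ofReal_eq_zero] at hy ⊢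
          exact hy
        · intro k hk
          have := hT k hk
          simp only [mem_iInter] at this
          exact this i i.2
      refine h1.congr fun k hk => ?_
      rw [← map_sum]
      congr 1
      ext y
      rw [ContinuousMap.coe_sum, Finset.sum_apply]
      by_cases hy : y ∈ tsupport (ψ : Y → ℂ)
      · have h2 : ∑ i : t, (ρ i y : ℂ) = 1 := by
          have := ρ.sum_eq_one hy
          rw [finsum_eq_sum_of_fintype] at this
          exact_mod_cast this
        calc ∑ i : t, (F k * ρc i) y = F k y * ∑ i : t, (ρ i y : ℂ) := by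
              rw [Finset.mul_sum]
              rfl
          _ = _ := by rw [h2, mul_one]
      · have : F k y = 0 := hR _ _ (hF k hk) y hy
        rw [this]
        refine Finset.sum_eq_zero fun i _ => ?_
        rw [ContinuousMap.mul_apply, this, zero_mul]
  exact main

section proj

variable {k : Type} [NontriviallyNormedField k] [ProperSpace k] {m n : Type} [Fintype m]
  [Fintype n]

/-- value of a function on the projective space at a vector; `0` at the vector `0` -/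
noncomputable def ev (f : C(ℙ k (m → k), ℂ)) (w : m → k) : ℂ :=
  open Classical in if h : w ≠ 0 then f (pj k m ⟨w, h⟩) else 0

lemma ev_ne (f : C(ℙ k (m → k), ℂ)) {w : m → k} (h : w ≠ 0) : ev f w = f (pj k m ⟨w, h⟩) := by
  rw [ev, dif_pos h]

lemma ev_zero (f : C(ℙ k (m → k), ℂ)) : ev f 0 = 0 := by
  rw [ev, dif_neg (by simp)]

lemma ev_add (f g : C(ℙ k (m → k), ℂ)) (w : m → k) : ev (f + g) w = ev f w + ev g w := by
  by_cases h : w = 0
  · subst h
    simp [ev_zero]
  · simp [ev_ne _ h]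

lemma ev_mul (f g : C(ℙ k (m → k), ℂ)) (w : m → k) : ev (f * g) w = ev f w * ev g w := by
  by_cases h : w = 0
  · subst h
    simp [ev_zero]
  · simp [ev_ne _ h]

lemma ev_smul (c : ℂ) (f : C(ℙ k (m → k), ℂ)) (w : m → k) : ev (c • f) w = c * ev f w := by
  by_cases h : w = 0
  · subst h
    simp [ev_zero]
  · simp [ev_ne _ h]

lemma ev_scale (f : C(ℙ k (m → k), ℂ)) {c : k} (hc : c ≠ 0) (w : m → k) :
    ev f (c • w) = ev f w := by
  by_cases h : w = 0
  · subst h
    simp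
  · have h' : c • w ≠ 0 := smul_ne_zero hc h
    rw [ev_ne _ h, ev_ne _ h']
    congr 1
    rw [pj_eq]
    exact ⟨Units.mk0 c hc, rfl⟩

lemma ev_cont (f : C(ℙ k (m → k), ℂ)) {w : m → k} (h : w ≠ 0) : ContinuousAt (ev f) w := by
  have h1 : ContinuousOn (ev f) {w | w ≠ 0} := by
    rw [continuousOn_iff_continuous_restrict]
    have : ({w : m → k | w ≠ 0}.domRestrict (ev f)) = fun w : {v : m → k // v ≠ 0} =>
        f (pj k m w) := by
      funext w
      exact ev_ne f w.2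
    rw [this]
    exact f.continuous.comp pj_continuous
  exact h1.continuousAt (isOpen_ne.mem_nhds h)

/-- the families `ψ [v] * f [T v]` -/
def Rel (ψ : C(ℙ k (n → k), ℂ)) (f : C(ℙ k (m → k), ℂ)) (T : Matrix m n k)
    (F : C(ℙ k (n → k), ℂ)) : Prop :=
  ∀ v : {v : n → k // v ≠ 0}, F (pj k n v) = ψ (pj k n v) * ev f (T *ᵥ v.1)

/-- the matrices of `Q` have no kernel on the support of `ψ` -/
def NK (Q : Set (Matrix m n k)) (ψ : C(ℙ k (n → k), ℂ)) : Prop :=
  ∀ T ∈ Q, ∀ v : {v : n → k // v ≠ 0}, pj k n v ∈ tsupport ψ → T *ᵥ v.1 ≠ 0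

/-- `f` is admissible -/
def Ad (f : C(ℙ k (m → k), ℂ)) : Prop :=
  ∀ (n : Type) [Fintype n] (Q : Set (Matrix m n k)), IsCompact Q → ∀ ψ : C(ℙ k (n → k), ℂ),
    NK Q ψ → ∃ C : ℝ, 0 ≤ C ∧ ∀ (K : Type) [NormedAddCommGroup K] [InnerProductSpace ℂ K]
      [CompleteSpace K] (lam : C(ℙ k (n → k), ℂ) →⋆ₐ[ℂ] (K →L[ℂ] K)) (ι : Type) (S : Finset ι)
      (T : ι → Matrix m n k) (F : ι → C(ℙ k (n → k), ℂ)), (∀ i ∈ S, T i ∈ Q) →
      (∀ i ∈ S, Rel ψ f (T i) (F i)) → Mult S (fun i => lam (F i)) C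

lemma Rel.supp {ψ : C(ℙ k (n → k), ℂ)} {f : C(ℙ k (m → k), ℂ)} {T : Matrix m n k}
    {F : C(ℙ k (n → k), ℂ)} (h : Rel ψ f T F) (y : ℙ k (n → k)) (hy : y ∉ tsupport ψ) :
    F y = 0 := by
  obtain ⟨v, rfl⟩ := pj_surj y
  rw [h v, image_eq_zero_of_notMem_tsupport hy, zero_mul]

/-- existence of `ψ [v] * f [T v]` -/
lemma exists_rel {T : Matrix m n k} {ψ : C(ℙ k (n → k), ℂ)}
    (h : ∀ v : {v : n → k // v ≠ 0}, pj k n v ∈ tsupport ψ → T *ᵥ v.1 ≠ 0)
    (f : C(ℙ k (m → k), ℂ)) : ∃ F, Rel ψ f T F := by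
  let G : {v : n → k // v ≠ 0} → ℂ := fun v => ψ (pj k n v) * ev f (T *ᵥ v.1)
  have hG : Continuous G := by
    rw [continuous_iff_continuousAt]
    intro v
    by_cases hv : pj k n v ∈ tsupport ψ
    · have h1 : ContinuousAt (fun v : {v : n → k // v ≠ 0} => T *ᵥ v.1) v :=
        (Continuous.matrix_mulVec continuous_const continuous_subtype_val).continuousAt
      have h2 : ContinuousAt (fun v : {v : n → k // v ≠ 0} => ev f (T *ᵥ v.1)) v :=
        ContinuousAt.comp (f := fun v : {v : n → k // v ≠ 0} => T *ᵥ v.1) (g := ev f)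
          (ev_cont f (h v hv)) h1
      exact (ψ.continuous.comp pj_continuous).continuousAt.mul h2
    · have h1 : ∀ᶠ w in 𝓝 v, G w = 0 := by
        have : IsOpen (pj k n ⁻¹' (tsupport ψ)ᶜ) :=
          (isClosed_tsupport _).isOpen_compl.preimage pj_continuous
        filter_upwards [this.mem_nhds hv] with w hw
        simp only [G]
        rw [image_eq_zero_of_notMem_tsupport hw, zero_mul]
      have h2 : G =ᶠ[𝓝 v] fun _ => 0 := h1
      exact (continuousAt_const).congr h2.symm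
  have hq : Topology.IsQuotientMap (pj k n) := pj_oq.isQuotientMap
  let F : C(ℙ k (n → k), ℂ) := ⟨fun y => G (Function.surjInv pj_surj y), by
    rw [hq.continuous_iff]
    have : (fun y => G (Function.surjInv (pj_surj (k := k) (ι := n)) y)) ∘ pj k n = G := by
      funext v
      simp only [Function.comp_apply, G]
      have e : pj k n (Function.surjInv pj_surj (pj k n v)) = pj k n v :=
        Function.surjInv_eq _ _
      rw [e]
      congr 1
      obtain ⟨c, hc⟩ := (pj_eq _ _).1 e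
      rw [← hc, Units.smul_def, Matrix.mulVec_smul, ev_scale f c.ne_zero]
    rw [this]
    exact hG⟩
  refine ⟨F, fun v => ?_⟩
  have e : pj k n (Function.surjInv pj_surj (pj k n v)) = pj k n v :=
    Function.surjInv_eq _ _
  change G _ = _
  simp only [G]
  rw [e]
  congr 1
  obtain ⟨c, hc⟩ := (pj_eq _ _).1 e
  rw [← hc, Units.smul_def, Matrix.mulVec_smul, ev_scale f c.ne_zero]

/-- a wider cut-off -/
lemma exists_wide {Q : Set (Matrix m n k)} (hQ : IsCompact Q) {ψ : C(ℙ k (n → k), ℂ)}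
    (h : NK Q ψ) : ∃ χ : C(ℙ k (n → k), ℂ), NK Q χ ∧ (∀ y ∈ tsupport ψ, χ y = 1) ∧
      ∀ y, ‖χ y‖ ≤ 1 := by
  -- the bad set
  let Z : Set (ℙ k (n → k)) := {y | ∃ T ∈ Q, ∃ v : {v : n → k // v ≠ 0}, pj k n v = y ∧
    T *ᵥ v.1 = 0}
  have hZ : IsClosed Z := by
    let A : Set (Q × ℙ k (n → k)) := {q | ∃ v : {v : n → k // v ≠ 0}, pj k n v = q.2 ∧
      q.1.1 *ᵥ v.1 = 0}
    have hA : IsClosed A := by
      have hq : IsOpenQuotientMap (Prod.map (id : Q → Q) (pj k n)) :=
        IsOpenQuotientMap.id.prodMap pj_oq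
      rw [← hq.isQuotientMap.isClosed_preimage]
      have : Prod.map (id : Q → Q) (pj k n) ⁻¹' A = {q | q.1.1 *ᵥ q.2.1 = 0} := by
        ext ⟨T, v⟩
        simp only [A, mem_preimage, Set.mem_setOf_eq, Prod.map_apply, id_eq]
        constructor
        · rintro ⟨w, hw, h0⟩
          obtain ⟨c, hc⟩ := (pj_eq _ _).1 hw
          rw [← hc, Units.smul_def, Matrix.mulVec_smul] at h0
          exact (smul_eq_zero.1 h0).resolve_left c.ne_zero
        · exact fun h0 => ⟨v, rfl, h0⟩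
      rw [this]
      refine isClosed_eq ?_ continuous_const
      exact (continuous_subtype_val.comp continuous_fst).matrix_mulVec
        (continuous_subtype_val.comp continuous_snd)
    have : CompactSpace Q := isCompact_iff_compactSpace.1 hQ
    have h1 := isClosedMap_snd_of_compactSpace (X := Q) (Y := ℙ k (n → k)) A hA
    have e : Prod.snd '' A = Z := by
      ext y
      constructor
      · rintro ⟨⟨T, y'⟩, ⟨v, hv, h0⟩, rfl⟩
        exact ⟨T.1, T.2, v, hv, h0⟩
      · rintro ⟨T, hT, v, hv, h0⟩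
        exact ⟨(⟨T, hT⟩, y), ⟨v, hv, h0⟩, rfl⟩
    rwa [e] at h1
  have hdisj : Disjoint (tsupport ψ) Z := by
    rw [Set.disjoint_left]
    rintro y hy ⟨T, hT, v, rfl, h0⟩
    exact h T hT v hy h0
  obtain ⟨O, hO, hψO, hOZ⟩ := normal_exists_closure_subset (isClosed_tsupport (ψ : _ → ℂ))
    hZ.isOpen_compl (Set.disjoint_left.1 hdisj)
  obtain ⟨f, hf0, hf1, hf⟩ := exists_continuous_zero_one_of_isClosed
      (s := Oᶜ) (t := tsupport ψ) hO.isClosed_compl (isClosed_tsupport _)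
      (by
        rw [Set.disjoint_compl_left_iff_subset]
        exact hψO)
  refine ⟨⟨fun y => (f y : ℂ), by fun_prop⟩, ?_, ?_, ?_⟩
  · intro T hT v hv h0
    have h1 : tsupport (fun y => (f y : ℂ)) ⊆ closure O := by
      refine closure_mono ?_
      intro y hy
      by_contra hyO
      have := hf0 (show y ∈ Oᶜ from hyO)
      simp only [Pi.zero_apply] at this
      simp [this] at hy
    exact hOZ (h1 hv) ⟨T, hT, v, rfl, h0⟩
  · intro y hy
    have := hf1 hy
    simp only [Pi.one_apply] at this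
    simp [this]
  · intro y
    have := hf y
    simp only [ContinuousMap.coe_mk, Complex.norm_real, Real.norm_eq_abs]
    rw [abs_le]
    constructor <;> linarith [this.1, this.2]

lemma Ad.const (c : ℂ) : Ad (k := k) (m := m) (ContinuousMap.const _ c) := by
  intro n _ Q hQ ψ hψ
  refine ⟨‖c‖ * ‖ψ‖, by positivity, ?_⟩
  intro K _ _ _ lam ι S T F hT hF
  refine (Mult.rep (S := S) lam (f := c • ψ) (by positivity) fun y => ?_).congr fun i hi => ?_
  · rw [ContinuousMap.smul_apply, smul_eq_mul, norm_mul]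
    gcongr
    exact ContinuousMap.norm_coe_le_norm ψ y
  · congr 1
    ext y
    obtain ⟨v, rfl⟩ := pj_surj y
    rw [hF i hi v, ContinuousMap.smul_apply, smul_eq_mul]
    by_cases hv : T i *ᵥ v.1 = 0
    · have : pj k n v ∉ tsupport ψ := fun h => hψ _ (hT i hi) v h hv
      rw [image_eq_zero_of_notMem_tsupport this]
      simp
    · rw [ev_ne _ hv]
      simp [mul_comm]

lemma Ad.add {f g : C(ℙ k (m → k), ℂ)} (hf : Ad f) (hg : Ad g) : Ad (f + g) := by
  intro n _ Q hQ ψ hψ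
  obtain ⟨C, hC, h⟩ := hf n Q hQ ψ hψ
  obtain ⟨D, hD, h'⟩ := hg n Q hQ ψ hψ
  refine ⟨C + D, by positivity, ?_⟩
  intro K _ _ _ lam ι S T F hT hF
  classical
  have e1 : ∀ i, ∃ F1 : C(ℙ k (n → k), ℂ), i ∈ S → Rel ψ f (T i) F1 := by
    intro i
    by_cases hi : i ∈ S
    · obtain ⟨F1, h1⟩ := exists_rel (hψ _ (hT i hi)) f
      exact ⟨F1, fun _ => h1⟩
    · exact ⟨0, fun h => absurd h hi⟩
  have e2 : ∀ i, ∃ F1 : C(ℙ k (n → k), ℂ), i ∈ S → Rel ψ g (T i) F1 := by
    intro i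
    by_cases hi : i ∈ S
    · obtain ⟨F1, h1⟩ := exists_rel (hψ _ (hT i hi)) g
      exact ⟨F1, fun _ => h1⟩
    · exact ⟨0, fun h => absurd h hi⟩
  choose F1 hF1 using e1
  choose F2 hF2 using e2
  refine ((h K lam ι S T F1 hT hF1).add (h' K lam ι S T F2 hT hF2)).congr fun i hi => ?_
  rw [← map_add]
  congr 1
  ext y
  obtain ⟨v, rfl⟩ := pj_surj y
  rw [ContinuousMap.add_apply, hF1 i hi v, hF2 i hi v, hF i hi v, ev_add]
  ring

lemma Ad.mul {f g : C(ℙ k (m → k), ℂ)} (hf : Ad f) (hg : Ad g) : Ad (f * g) := by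
  intro n _ Q hQ ψ hψ
  obtain ⟨χ, hχ, hχ1, -⟩ := exists_wide hQ hψ
  obtain ⟨C, hC, h⟩ := hf n Q hQ ψ hψ
  obtain ⟨D, hD, h'⟩ := hg n Q hQ χ hχ
  refine ⟨C * D, by positivity, ?_⟩
  intro K _ _ _ lam ι S T F hT hF
  classical
  have e1 : ∀ i, ∃ F1 : C(ℙ k (n → k), ℂ), i ∈ S → Rel ψ f (T i) F1 := by
    intro i
    by_cases hi : i ∈ S
    · obtain ⟨F1, h1⟩ := exists_rel (hψ _ (hT i hi)) f
      exact ⟨F1, fun _ => h1⟩
    · exact ⟨0, fun h => absurd h hi⟩
  have e2 : ∀ i, ∃ F1 : C(ℙ k (n → k), ℂ), i ∈ S → Rel χ g (T i) F1 := by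
    intro i
    by_cases hi : i ∈ S
    · obtain ⟨F1, h1⟩ := exists_rel (hχ _ (hT i hi)) g
      exact ⟨F1, fun _ => h1⟩
    · exact ⟨0, fun h => absurd h hi⟩
  choose F1 hF1 using e1
  choose F2 hF2 using e2
  refine ((h K lam ι S T F1 hT hF1).mul (h' K lam ι S T F2 hT hF2)).congr fun i hi => ?_
  rw [← map_mul]
  congr 1
  ext y
  obtain ⟨v, rfl⟩ := pj_surj y
  rw [ContinuousMap.mul_apply, hF1 i hi v, hF2 i hi v, hF i hi v, ev_mul]
  by_cases hy : pj k n v ∈ tsupport ψ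
  · rw [hχ1 _ hy]
    ring
  · rw [image_eq_zero_of_notMem_tsupport hy]
    ring

lemma Ad.smul {f : C(ℙ k (m → k), ℂ)} (c : ℂ) (hf : Ad f) : Ad (c • f) := by
  have := (Ad.const (k := k) (m := m) c).mul hf
  have e : ContinuousMap.const (ℙ k (m → k)) c * f = c • f := by
    ext y
    simp
  rwa [e] at this

end proj

section arch

/-! ### `k = ℝ`, `ℂ` -/

variable {k : Type} [NontriviallyNormedField k] [ProperSpace k] {m n : Type} [Fintype m]
  [Fintype n]

/-- `∑ ‖v i‖²` -/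
noncomputable def sq (v : m → k) : ℝ := ∑ i, ‖v i‖ ^ 2

lemma sq_pos {v : m → k} (hv : v ≠ 0) : 0 < sq v := by
  obtain ⟨i, hi⟩ : ∃ i, v i ≠ 0 := by
    by_contra hc
    push Not at hc
    exact hv (funext hc)
  have h1 : 0 < ‖v i‖ ^ 2 := by
    have := norm_pos_iff.2 hi
    positivity
  exact h1.trans_le (Finset.single_le_sum (f := fun i => ‖v i‖ ^ 2)
    (fun _ _ => by positivity) (Finset.mem_univ i))

lemma sq_smul (c : k) (v : m → k) : sq (c • v) = ‖c‖ ^ 2 * sq v := by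
  simp only [sq, Pi.smul_apply, smul_eq_mul, norm_mul, mul_pow, Finset.mul_sum]

/-- the function `v_p conj (v_q) / |v|²` -/
noncomputable def E (κ : k →+* ℂ) (hκ : ∀ z, ‖κ z‖ = ‖z‖) (p q : m) : C(ℙ k (m → k), ℂ) where
  toFun := Quotient.lift (fun v : {v : m → k // v ≠ 0} =>
      κ (v.1 p) * (starRingEnd ℂ) (κ (v.1 q)) / (sq v.1 : ℂ)) (by
    rintro v w ⟨c, hc⟩
    have hc' : c • w.1 = v.1 := hc
    rw [← hc', Units.smul_def, sq_smul]
    simp only [Pi.smul_apply, smul_eq_mul, map_mul]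
    have hcc : κ (c : k) * (starRingEnd ℂ) (κ (c : k)) = ((‖(c : k)‖ ^ 2 : ℝ) : ℂ) := by
      rw [Complex.mul_conj, Complex.normSq_eq_norm_sq, hκ]
    have h1 : ((‖(c : k)‖ ^ 2 : ℝ) : ℂ) ≠ 0 := by
      have : ‖(c : k)‖ ≠ 0 := norm_ne_zero_iff.2 c.ne_zero
      exact_mod_cast pow_ne_zero 2 this
    have h2 : ((sq w.1 : ℝ) : ℂ) ≠ 0 := by
      exact_mod_cast (sq_pos w.2).ne'
    push_cast at hcc h1 ⊢
    rw [div_eq_div_iff (mul_ne_zero h1 h2) h2]
    linear_combination (κ (w.1 p) * (starRingEnd ℂ) (κ (w.1 q)) * (sq w.1 : ℂ)) * hcc)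
  continuous_toFun := by
    have hκc : Continuous κ := by
      have : Isometry κ := AddMonoidHomClass.isometry_of_norm κ hκ
      exact this.continuous
    refine Continuous.quotient_lift ?_ _
    have hs : Continuous fun v : {v : m → k // v ≠ 0} => ((sq v.1 : ℝ) : ℂ) := by
      refine Complex.continuous_ofReal.comp ?_
      refine continuous_finset_sum _ fun i _ => ?_
      exact (((continuous_apply i).comp continuous_subtype_val).norm).pow 2
    refine Continuous.div ?_ hs ?_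
    · refine (hκc.comp ((continuous_apply p).comp continuous_subtype_val)).mul ?_
      exact Complex.continuous_conj.comp
        (hκc.comp ((continuous_apply q).comp continuous_subtype_val))
    · intro v
      exact_mod_cast (sq_pos v.2).ne'

lemma E_apply (κ : k →+* ℂ) (hκ : ∀ z, ‖κ z‖ = ‖z‖) (p q : m) (v : {v : m → k // v ≠ 0}) :
    E κ hκ p q (pj k m v) = κ (v.1 p) * (starRingEnd ℂ) (κ (v.1 q)) / (sq v.1 : ℂ) := rfl

lemma E_le (κ : k →+* ℂ) (hκ : ∀ z, ‖κ z‖ = ‖z‖) (p q : m) (y : ℙ k (m → k)) :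
    ‖E κ hκ p q y‖ ≤ 1 := by
  obtain ⟨v, rfl⟩ := pj_surj y
  have h0 := sq_pos v.2
  rw [E_apply, norm_div, norm_mul, RCLike.norm_conj, hκ, hκ, Complex.norm_real,
    Real.norm_of_nonneg h0.le, div_le_one h0]
  have h1 : ‖v.1 p‖ ^ 2 ≤ sq v.1 := Finset.single_le_sum (f := fun i => ‖v.1 i‖ ^ 2)
    (fun _ _ => by positivity) (Finset.mem_univ p)
  have h2 : ‖v.1 q‖ ^ 2 ≤ sq v.1 := Finset.single_le_sum (f := fun i => ‖v.1 i‖ ^ 2)
    (fun _ _ => by positivity) (Finset.mem_univ q)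
  nlinarith [sq_nonneg (‖v.1 p‖ - ‖v.1 q‖)]

lemma E_star (κ : k →+* ℂ) (hκ : ∀ z, ‖κ z‖ = ‖z‖) (p q : m) :
    star (E κ hκ p q) = E κ hκ q p := by
  ext y
  obtain ⟨v, rfl⟩ := pj_surj y
  rw [ContinuousMap.star_apply, E_apply, E_apply]
  simp only [RCLike.star_def, map_div₀, map_mul, Complex.conj_conj, Complex.conj_ofReal]
  rw [mul_comm]

theorem ad_E (κ : k →+* ℂ) (hκ : ∀ z, ‖κ z‖ = ‖z‖) (p q : m) : Ad (E κ hκ p q) := by
  classical
  intro n _ Q hQ ψ hψ
  have hκc : Continuous κ := (AddMonoidHomClass.isometry_of_norm κ hκ).continuous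
  let e : n × n → C(ℙ k (n → k), ℂ) := fun j => E κ hκ j.1 j.2
  let a : Matrix m n k → n × n → ℂ := fun T j => κ (T p j.1) * (starRingEnd ℂ) (κ (T q j.2))
  let b : Matrix m n k → n × n → ℂ := fun T j =>
    ∑ r, κ (T r j.1) * (starRingEnd ℂ) (κ (T r j.2))
  have hent : ∀ (r : m) (i : n), Continuous fun T : Matrix m n k => κ (T r i) := fun r i =>
    hκc.comp ((continuous_apply i).comp (continuous_apply r))
  have ha : Continuous a := continuous_pi fun j =>
    (hent p j.1).mul (Complex.continuous_conj.comp (hent q j.2))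
  have hb : Continuous b := continuous_pi fun j => continuous_finset_sum _ fun r _ =>
    (hent r j.1).mul (Complex.continuous_conj.comp (hent r j.2))
  have hsum : ∀ (T : Matrix m n k) (r s : m) (v : {v : n → k // v ≠ 0}),
      ∑ j : n × n, (κ (T r j.1) * (starRingEnd ℂ) (κ (T s j.2))) * e j (pj k n v) =
        κ ((T *ᵥ v.1) r) * (starRingEnd ℂ) (κ ((T *ᵥ v.1) s)) / (sq v.1 : ℂ) := by
    intro T r s v
    simp only [e, E_apply]
    rw [Fintype.sum_prod_type]
    simp only [Matrix.mulVec, dotProduct, map_sum, map_mul]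
    rw [Finset.sum_mul_sum, Finset.sum_div]
    refine Finset.sum_congr rfl fun i _ => ?_
    rw [Finset.sum_div]
    refine Finset.sum_congr rfl fun j _ => ?_
    ring
  have hnum : ∀ (T : Matrix m n k) (v : {v : n → k // v ≠ 0}),
      ∑ j, a T j * e j (pj k n v) =
        κ ((T *ᵥ v.1) p) * (starRingEnd ℂ) (κ ((T *ᵥ v.1) q)) / (sq v.1 : ℂ) := fun T v =>
    hsum T p q v
  have hdn : ∀ (T : Matrix m n k) (v : {v : n → k // v ≠ 0}),
      ∑ j, b T j * e j (pj k n v) = (sq (T *ᵥ v.1) : ℂ) / (sq v.1 : ℂ) := by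
    intro T v
    simp only [b, Finset.sum_mul]
    rw [Finset.sum_comm]
    have : ∀ r, ∑ j : n × n, κ (T r j.1) * (starRingEnd ℂ) (κ (T r j.2)) * e j (pj k n v) =
        ((‖(T *ᵥ v.1) r‖ ^ 2 : ℝ) : ℂ) / (sq v.1 : ℂ) := by
      intro r
      rw [hsum T r r v, Complex.mul_conj, Complex.normSq_eq_norm_sq, hκ]
    rw [Finset.sum_congr rfl fun r _ => this r, ← Finset.sum_div]
    congr 1
    rw [sq]
    push_cast
    rfl
  obtain ⟨C, hC, h⟩ := cpt e (fun j y => E_le κ hκ _ _ y) a b ha hb hQ ψ (by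
    intro T hT y hy
    obtain ⟨v, rfl⟩ := pj_surj y
    rw [hdn]
    have h1 := sq_pos v.2
    have h2 := sq_pos (hψ T hT v hy)
    exact div_ne_zero (by exact_mod_cast h2.ne') (by exact_mod_cast h1.ne'))
  refine ⟨C, hC, ?_⟩
  intro K _ _ _ lam ι S T F hT hF
  refine h K lam ι S T F hT ?_ ?_
  · intro i hi y
    obtain ⟨v, rfl⟩ := pj_surj y
    rw [hnum, hdn, hF i hi v]
    by_cases hv : T i *ᵥ v.1 = 0
    · rw [hv, ev_zero]
      simp
    · rw [ev_ne _ hv, E_apply]
      have h2 : ((sq (T i *ᵥ v.1) : ℝ) : ℂ) ≠ 0 := by exact_mod_cast (sq_pos hv).ne'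
      field_simp
  · intro i hi y hy
    obtain ⟨v, rfl⟩ := pj_surj y
    rw [hF i hi v, hy, zero_mul]

/-- the admissible functions are dense, `k = ℝ` or `ℂ` -/
theorem dense_ad (κ : k →+* ℂ) (hκ : ∀ z, ‖κ z‖ = ‖z‖) :
    Dense {f : C(ℙ k (m → k), ℂ) | Ad f} := by
  classical
  let s : Set C(ℙ k (m → k), ℂ) := {f | ∃ p q, f = E κ hκ p q}
  have hstar : star s ⊆ s := by
    intro f hf
    obtain ⟨p, q, h⟩ := (Set.mem_star.1 hf)
    refine ⟨q, p, ?_⟩
    rw [← E_star κ hκ p q, ← h, star_star]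
  let A : StarSubalgebra ℂ C(ℙ k (m → k), ℂ) := StarAlgebra.adjoin ℂ s
  have hA : ∀ f ∈ A, Ad f := by
    intro f hf
    have hf' : f ∈ Algebra.adjoin ℂ (s ∪ star s) := by
      have : f ∈ A.toSubalgebra := hf
      rwa [StarAlgebra.adjoin_toSubalgebra] at this
    have e : s ∪ star s = s := Set.union_eq_left.2 hstar
    rw [e] at hf'
    refine Algebra.adjoin_induction (p := fun f _ => Ad f) ?_ ?_ ?_ ?_ hf'
    · rintro f ⟨p, q, rfl⟩
      exact ad_E κ hκ p q
    · intro r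
      exact Ad.const r
    · intro f g _ _ hf hg
      exact hf.add hg
    · intro f g _ _ hf hg
      exact hf.mul hg
  have hsep : A.toSubalgebra.SeparatesPoints := by
    intro x y hxy
    obtain ⟨v, rfl⟩ := pj_surj x
    obtain ⟨w, rfl⟩ := pj_surj y
    by_contra hc
    push Not at hc
    have hE : ∀ p q, E κ hκ p q (pj k m v) = E κ hκ p q (pj k m w) := by
      intro p q
      refine hc _ ⟨E κ hκ p q, ?_, rfl⟩
      exact StarAlgebra.subset_adjoin ℂ s ⟨p, q, rfl⟩
    apply hxy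
    rw [pj_eq_iff]
    obtain ⟨q, hq⟩ : ∃ i, v.1 i ≠ 0 := by
      by_contra hc
      push Not at hc
      exact v.2 (funext hc)
    have hv0 : ((sq v.1 : ℝ) : ℂ) ≠ 0 := by exact_mod_cast (sq_pos v.2).ne'
    have hw0 : ((sq w.1 : ℝ) : ℂ) ≠ 0 := by exact_mod_cast (sq_pos w.2).ne'
    have hκ0 : ∀ z, κ z = 0 → z = 0 := fun z hz => by
      have := hκ z
      rw [hz, norm_zero] at this
      exact norm_eq_zero.1 this.symm
    have hvq : (starRingEnd ℂ) (κ (v.1 q)) ≠ 0 := by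
      intro h
      rw [map_eq_zero] at h
      exact hq (hκ0 _ h)
    have h1 : ∀ p, κ (v.1 p) * (starRingEnd ℂ) (κ (v.1 q)) * (sq w.1 : ℂ) =
        κ (w.1 p) * (starRingEnd ℂ) (κ (w.1 q)) * (sq v.1 : ℂ) := by
      intro p
      have := hE p q
      rw [E_apply, E_apply, div_eq_div_iff hv0 hw0] at this
      exact this
    have hne : (starRingEnd ℂ) (κ (v.1 q)) * (sq w.1 : ℂ) ≠ 0 := mul_ne_zero hvq hw0
    -- v is proportional to w
    have h2 : ∀ p r, κ (v.1 p * w.1 r - v.1 r * w.1 p) = 0 := by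
      intro p r
      rw [map_sub, map_mul, map_mul]
      refine (mul_eq_zero.1 ?_).resolve_right hne
      linear_combination (κ (w.1 r)) * h1 p - (κ (w.1 p)) * h1 r
    ext ⟨p, r⟩
    exact hκ0 _ (h2 p r)
  have h := ContinuousMap.starSubalgebra_topologicalClosure_eq_top_of_separatesPoints A hsep
  have hd : Dense (A : Set C(ℙ k (m → k), ℂ)) := by
    intro f
    have : f ∈ A.topologicalClosure := by
      rw [h]
      trivial
    exact this
  exact hd.mono hA

end arch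

section ultra

/-! ### nonarchimedean fields -/

variable {k : Type} [NontriviallyNormedField k] [ProperSpace k] {m n : Type} [Fintype m]
  [Fintype n]

theorem ad_loc {f : C(ℙ k (m → k), ℂ)} (hf : IsLocallyConstant f) : Ad f := by
  classical
  intro n _ Q hQ ψ hψ
  refine (cpt_rel hQ ψ (Rel ψ f) (fun T F h y hy => h.supp y hy) ?_)
  intro T₀ hT₀ y hy
  obtain ⟨v₀, rfl⟩ := pj_surj y
  have h0 : T₀ *ᵥ v₀.1 ≠ 0 := hψ T₀ hT₀ v₀ hy
  set c := ev f (T₀ *ᵥ v₀.1) with hc
  -- open set of (T, v)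
  let W : Set (Matrix m n k × {v : n → k // v ≠ 0}) :=
    {q | q.1 *ᵥ q.2.1 ≠ 0 ∧ ev f (q.1 *ᵥ q.2.1) = c}
  have hWo : IsOpen W := by
    have hcont : Continuous fun q : Matrix m n k × {v : n → k // v ≠ 0} => q.1 *ᵥ q.2.1 :=
      continuous_fst.matrix_mulVec (continuous_subtype_val.comp continuous_snd)
    have h1 : IsOpen {w : m → k | w ≠ 0 ∧ ev f w = c} := by
      have : {w : m → k | w ≠ 0 ∧ ev f w = c} =
          Subtype.val '' (pj k m ⁻¹' (f ⁻¹' {c})) := by
        ext w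
        constructor
        · rintro ⟨hw, he⟩
          refine ⟨⟨w, hw⟩, ?_, rfl⟩
          rw [ev_ne _ hw] at he
          exact he
        · rintro ⟨w', hw', rfl⟩
          refine ⟨w'.2, ?_⟩
          rw [ev_ne _ w'.2]
          exact hw'
      rw [this]
      have ho : IsOpen {w : m → k | w ≠ 0} := isOpen_ne
      exact ho.isOpenMap_subtype_val _ ((hf {c}).preimage pj_continuous)
    exact h1.preimage hcont
  have hW0 : (T₀, v₀) ∈ W := ⟨h0, rfl⟩
  obtain ⟨U, hU, V, hV, hUV⟩ := mem_nhds_prod_iff.1 (hWo.mem_nhds hW0)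
  obtain ⟨V', hV'V, hV'o, hv₀⟩ := mem_nhds_iff.1 hV
  refine ⟨U, hU, pj k n '' V', pj_open _ hV'o, ⟨v₀, hv₀, rfl⟩, ‖c‖ * ‖ψ‖, by positivity, ?_⟩
  intro K _ _ _ lam ι S T F ρ hρ hρV hT hF
  refine (Mult.rep (S := S) lam (f := c • (ψ * ρ)) (by positivity) fun y => ?_).congr
    fun i hi => ?_
  · rw [ContinuousMap.smul_apply, smul_eq_mul, norm_mul, ContinuousMap.mul_apply, norm_mul]
    have h1 := hρ y
    have h2 := ContinuousMap.norm_coe_le_norm ψ y
    calc ‖c‖ * (‖ψ y‖ * ‖ρ y‖) ≤ ‖c‖ * (‖ψ‖ * 1) := by gcongr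
      _ = _ := by ring
  · congr 1
    ext y
    obtain ⟨v, rfl⟩ := pj_surj y
    rw [ContinuousMap.smul_apply, smul_eq_mul, ContinuousMap.mul_apply, ContinuousMap.mul_apply,
      hF i hi v]
    by_cases hy : pj k n v ∈ tsupport ρ
    · obtain ⟨w, hw, hwv⟩ := hρV hy
      obtain ⟨s, hs⟩ := (pj_eq _ _).1 hwv
      have h1 : ev f (T i *ᵥ w.1) = c :=
        (hUV (show (T i, w) ∈ U ×ˢ V from ⟨hT i hi, hV'V hw⟩)).2
      have h2 : ev f (T i *ᵥ v.1) = c := by
        rw [← h1, ← hs, Units.smul_def, Matrix.mulVec_smul, ev_scale f s.ne_zero]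
      rw [h2]
      ring
    · rw [image_eq_zero_of_notMem_tsupport hy]
      ring

/-- the admissible functions are dense, `k` nonarchimedean -/
theorem dense_ad_ultra [IsUltrametricDist k] : Dense {f : C(ℙ k (m → k), ℂ) | Ad f} := by
  classical
  let A : StarSubalgebra ℂ C(ℙ k (m → k), ℂ) :=
    { carrier := {f | IsLocallyConstant f}
      mul_mem' := fun {f g} hf hg => IsLocallyConstant.mul hf hg
      add_mem' := fun {f g} hf hg => IsLocallyConstant.add hf hg
      algebraMap_mem' := fun r => IsLocallyConstant.const r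
      star_mem' := fun {f} hf => IsLocallyConstant.comp hf star }
  have hsep : A.toSubalgebra.SeparatesPoints := by
    intro x y hxy
    obtain ⟨U, hU, hx, hy⟩ := exists_isClopen_of_totally_separated hxy
    let g0 : LocallyConstant (ℙ k (m → k)) ℂ := LocallyConstant.charFn ℂ hU
    let g : C(ℙ k (m → k), ℂ) := ⟨g0, g0.isLocallyConstant.continuous⟩
    refine ⟨g, ⟨g, g0.isLocallyConstant, rfl⟩, ?_⟩
    have h1 : g x = 1 := by
      change g0 x = 1
      simp [g0, LocallyConstant.coe_charFn, hx]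
    have h2 : g y = 0 := by
      have hy' : y ∉ U := hy
      change g0 y = 0
      simp [g0, LocallyConstant.coe_charFn, hy']
    rw [h1, h2]
    exact one_ne_zero
  have h := ContinuousMap.starSubalgebra_topologicalClosure_eq_top_of_separatesPoints A hsep
  have hd : Dense (A : Set C(ℙ k (m → k), ℂ)) := by
    intro f
    have : f ∈ A.topologicalClosure := by
      rw [h]
      trivial
    exact this
  exact hd.mono fun f hf => ad_loc hf

end ultra

end Vale.Agent.P092.H890
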