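import Vale.Agent.P092.SN.Blocks

/-!
P092, TEAM N (helper890), the word count literal of block [N-W0].
-/

set_option linter.all false

open scoped InnerProductSpace ENNReal LinearAlgebra.Projectivization
open Filter Topology ContinuousLinearMap MeasureTheory TopologicalSpace

namespace Vale.Agent.P092.H890.W0F

open Vale.Agent.P092.SD (Ms UC)
open Vale.Agent.P092.RC (Cm TRN Moore GG PG YY y0 ct)
open Vale.Agent.P092.SN

/-- **[NJW]** the word count: the near-wall count of a word in hyperplane calculi times a localiser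
is polynomial. No relation between the calculi is assumed. -/
def NJWStmt (k : Type) [NontriviallyNormedField k] [ProperSpace k] : Prop :=
  ∀ {N : ℕ}, 2 ≤ N → ∃ D : Set (CY k N),
    closure (Submodule.span ℂ D : Set (CY k N)) = Set.univ ∧
  ∀ {Γ K : Type} [Group Γ] [NormedAddCommGroup K] [InnerProductSpace ℂ K] [CompleteSpace K]
    (q : Γ → GG k N) (Z : ℝ → Set Γ), (∀ R, UD q (Z R)) →
    ∀ (lm : CY k N →⋆ₐ[ℂ] (K →L[ℂ] K)) (L : List ((CY k N →⋆ₐ[ℂ] (K →L[ℂ] K)) × CY k N)),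
      (∀ p ∈ L, p.2 ∈ D) →
    ∀ (R : ℝ) (A : Set (YY k N)) (h : CY k N), NInc (closure A) (tsupport h) →
      ∃ T > 0, ∃ (C : ℝ) (d : ℕ), ∀ J : ℝ, 0 ≤ J → ∀ S : Finset Γ,
        (∀ γ ∈ S, γ ∈ NWA q Z R T A ∧ Real.log (nm (q γ)) ≤ J) →
        ∀ ξ : K, ∑ γ ∈ S, ‖lm (act (ct (q γ)⁻¹) h)
          ((L.map fun p => p.1 (act (ct (q γ)⁻¹) p.2)).prod ξ)‖ ^ 2 ≤ C * (1 + J) ^ d * ‖ξ‖ ^ 2

end Vale.Agent.P092.H890.W0F
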