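import Vale.Agent.P092.H890.Mul

/-!
P092, TEAM N (helper890): the compactness lemma. Families of ratios
`F k = ψ * (∑ a_j(T k) e_j) / (∑ b_j(T k) e_j)`, `T k` in a compact set, the denominator without
zeros on the support of `ψ`, are multipliers, uniformly in the representation and in the family.
-/

set_option linter.all false

open scoped BigOperators Topology
open Filter Set

namespace Vale.Agent.P092.H890

section basic

variable {Y : Type*} [TopologicalSpace Y] [CompactSpace Y]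
  {K : Type*} [NormedAddCommGroup K] [InnerProductSpace ℂ K] [CompleteSpace K]

lemma norm_rep_le (φ : C(Y, ℂ) →⋆ₐ[ℂ] (K →L[ℂ] K)) {f : C(Y, ℂ)} {c : ℝ} (hc : 0 ≤ c)
    (h : ∀ y, ‖f y‖ ≤ c) (ξ : K) : ‖φ f ξ‖ ≤ c * ‖ξ‖ := by
  have h1 : ‖φ f‖ ≤ ‖f‖ := NonUnitalStarAlgHom.norm_apply_le φ f
  have h2 : ‖f‖ ≤ c := (ContinuousMap.norm_le f hc).2 h
  exact ((φ f).le_opNorm ξ).trans (by gcongr; exact h1.trans h2)

lemma Mult.rep {ι : Type*} {S : Finset ι} (φ : C(Y, ℂ) →⋆ₐ[ℂ] (K →L[ℂ] K)) {f : C(Y, ℂ)} {c : ℝ}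
    (hc : 0 ≤ c) (h : ∀ y, ‖f y‖ ≤ c) : Mult S (fun _ => φ f) c :=
  Mult.const hc (norm_rep_le φ hc h)

end basic

/-- the local step -/
theorem local_step {Y : Type*} [TopologicalSpace Y] [CompactSpace Y] [T2Space Y] {τ : Type*}
    [TopologicalSpace τ] {J : Type*} [Fintype J] (e : J → C(Y, ℂ)) (he : ∀ j y, ‖e j y‖ ≤ 1)
    (a b : τ → J → ℂ) (ha : Continuous a) (hb : Continuous b) (ψ : C(Y, ℂ)) (T₀ : τ) (y₀ : Y)
    (h0 : ∑ j, b T₀ j * e j y₀ ≠ 0) :
    ∃ U ∈ 𝓝 T₀, ∃ V : Set Y, IsOpen V ∧ y₀ ∈ V ∧ ∃ C : ℝ, 0 ≤ C ∧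
      ∀ (K : Type) [NormedAddCommGroup K] [InnerProductSpace ℂ K] [CompleteSpace K]
        (lam : C(Y, ℂ) →⋆ₐ[ℂ] (K →L[ℂ] K)) (ι : Type) (S : Finset ι) (T : ι → τ)
        (F : ι → C(Y, ℂ)) (ρ : C(Y, ℂ)), (∀ y, ‖ρ y‖ ≤ 1) → tsupport ρ ⊆ V →
        (∀ k ∈ S, T k ∈ U) →
        (∀ k ∈ S, ∀ y, F k y * ∑ j, b (T k) j * e j y = ψ y * ∑ j, a (T k) j * e j y) →
        Mult S (fun k => lam (F k * ρ)) C := by
  classical
  set d := ∑ j, b T₀ j * e j y₀ with hd
  have hd0 : 0 < ‖d‖ := norm_pos_iff.2 h0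
  -- the neighbourhood of T₀
  set n : ℝ := (Fintype.card J : ℝ) + 1 with hn
  have hn0 : 0 < n := by positivity
  have hU1 : ∀ᶠ T in 𝓝 T₀, ∀ j, ‖b T j - b T₀ j‖ < ‖d‖ / (4 * n) := by
    rw [eventually_all]
    intro j
    have hc : Continuous fun T => ‖b T j - b T₀ j‖ :=
      (((continuous_apply j).comp hb).sub continuous_const).norm
    have h1 : Tendsto (fun T => ‖b T j - b T₀ j‖) (𝓝 T₀) (𝓝 0) := by
      have := hc.tendsto T₀
      simpa using this
    exact h1.eventually (gt_mem_nhds (by positivity))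
  have hU2 : ∀ᶠ T in 𝓝 T₀, ∀ j, ‖a T j‖ < ‖a T₀ j‖ + 1 := by
    rw [eventually_all]
    intro j
    have hc : Continuous fun T => ‖a T j‖ := ((continuous_apply j).comp ha).norm
    exact (hc.tendsto T₀).eventually (gt_mem_nhds (by linarith))
  -- the function on Y
  let g : C(Y, ℂ) := ∑ j, (b T₀ j / d) • (e j - ContinuousMap.const Y (e j y₀))
  have hg : ∀ y, g y = (∑ j, b T₀ j * e j y - d) / d := by
    intro y
    simp only [g, ContinuousMap.coe_sum, Finset.sum_apply, ContinuousMap.coe_smul, Pi.smul_apply,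
      ContinuousMap.sub_apply, ContinuousMap.const_apply, smul_eq_mul]
    rw [hd, ← Finset.sum_sub_distrib, Finset.sum_div]
    refine Finset.sum_congr rfl fun j _ => ?_
    ring
  have hg0 : g y₀ = 0 := by rw [hg, ← hd, sub_self, zero_div]
  let V : Set Y := {y | ‖g y‖ < 1 / 4}
  have hVo : IsOpen V := isOpen_lt g.continuous.norm continuous_const
  refine ⟨_, inter_mem hU1 hU2, V, hVo, by simp [V, hg0], 2 * (‖ψ‖ *
    ∑ j, ((‖a T₀ j‖ + 1) / ‖d‖) * 1), by positivity, ?_⟩
  intro K _ _ _ lam ι S T F ρ hρ hρV hT hF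
  -- the cut-off
  obtain ⟨χ, hχ1, hχ0, hχb⟩ : ∃ χ : C(Y, ℂ), (∀ y ∈ tsupport ρ, χ y = 1) ∧
      (∀ y, y ∉ V → χ y = 0) ∧ ∀ y, ‖χ y‖ ≤ 1 := by
    obtain ⟨f, hf0, hf1, hf⟩ := exists_continuous_zero_one_of_isClosed (X := Y)
      (s := Vᶜ) (t := tsupport ρ) hVo.isClosed_compl (isClosed_tsupport ρ)
      (by
        rw [Set.disjoint_compl_left_iff_subset]
        exact hρV)
    refine ⟨⟨fun y => (f y : ℂ), by fun_prop⟩, ?_, ?_, ?_⟩
    · intro y hy
      have := hf1 hy
      simp only [Pi.one_apply] at this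
      simp [this]
    · intro y hy
      have := hf0 (show y ∈ Vᶜ from hy)
      simp only [Pi.zero_apply] at this
      simp [this]
    · intro y
      have := hf y
      simp only [ContinuousMap.coe_mk, Complex.norm_real, Real.norm_eq_abs]
      rw [abs_le]
      constructor <;> linarith [this.1, this.2]
  have hM1 : Mult S (fun k => ∑ j, ((b (T k) j - b T₀ j) / d) • lam (e j)) (1 / 4) := by
    refine (Mult.comb (A := fun _ => 1 / (4 * n)) (M := fun _ => 1) Finset.univ
      (fun j _ => by positivity) ?_ (fun _ _ => by norm_num) ?_).mono ?_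
    · intro k hk j _
      rw [norm_div, div_le_iff₀ hd0]
      have := (hT k hk).1 j
      calc _ ≤ ‖d‖ / (4 * n) := this.le
        _ = _ := by ring
    · intro j _ x
      exact norm_rep_le lam (by norm_num) (he j) x
    · rw [Finset.sum_const, Finset.card_univ, nsmul_eq_mul, mul_one, mul_one_div,
        div_le_iff₀ (by positivity)]
      rw [hn]
      ring_nf
      linarith [show (0 : ℝ) ≤ (Fintype.card J : ℝ) from Nat.cast_nonneg _]
  have hM2 : Mult S (fun _ => lam (χ * g)) (1 / 4) := by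
    refine Mult.rep lam (by norm_num) fun y => ?_
    by_cases hy : y ∈ V
    · rw [ContinuousMap.mul_apply, norm_mul]
      have h1 := hχb y
      have h2 : ‖g y‖ ≤ 1 / 4 := le_of_lt hy
      calc ‖χ y‖ * ‖g y‖ ≤ 1 * (1 / 4) := by gcongr
        _ = _ := by ring
    · rw [ContinuousMap.mul_apply, hχ0 y hy, zero_mul, norm_zero]
      norm_num
  have hE := hM1.add hM2
  have hZ : Mult S (fun k => lam (ψ * ρ) * ∑ j, (a (T k) j / d) • lam (e j))
      (‖ψ‖ * ∑ j, ((‖a T₀ j‖ + 1) / ‖d‖) * 1) := by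
    refine (Mult.rep lam (norm_nonneg _) fun y => ?_).mul
      (Mult.comb Finset.univ (fun j _ => by positivity) ?_ (fun _ _ => by norm_num) ?_)
    · rw [ContinuousMap.mul_apply, norm_mul]
      calc ‖ψ y‖ * ‖ρ y‖ ≤ ‖ψ‖ * 1 := by
            gcongr
            · exact ContinuousMap.norm_coe_le_norm ψ y
            · exact hρ y
        _ = _ := by ring
    · intro k hk j _
      rw [norm_div]
      have := (hT k hk).2 j
      gcongr
    · intro j _ x
      exact norm_rep_le lam (by norm_num) (he j) x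
  refine Mult.boot hZ (hE.mono (by norm_num)) ?_
  intro k hk
  have key : F k * ρ = ψ * ρ * ∑ j, (a (T k) j / d) • e j -
      F k * ρ * (∑ j, ((b (T k) j - b T₀ j) / d) • e j + χ * g) := by
    ext y
    have h1 := hF k hk y
    simp only [ContinuousMap.mul_apply, ContinuousMap.sub_apply, ContinuousMap.add_apply,
      ContinuousMap.coe_sum, Finset.sum_apply, ContinuousMap.coe_smul, Pi.smul_apply,
      smul_eq_mul]
    have hdne : d ≠ 0 := h0
    have e1 : ∑ j, a (T k) j / d * e j y = (∑ j, a (T k) j * e j y) / d := by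
      rw [Finset.sum_div]
      exact Finset.sum_congr rfl fun j _ => by ring
    have e2 : ∑ j, (b (T k) j - b T₀ j) / d * e j y =
        (∑ j, b (T k) j * e j y - ∑ j, b T₀ j * e j y) / d := by
      rw [← Finset.sum_sub_distrib, Finset.sum_div]
      exact Finset.sum_congr rfl fun j _ => by ring
    rw [e1, e2, hg]
    by_cases hy : y ∈ tsupport ρ
    · rw [hχ1 y hy]
      field_simp
      linear_combination (ρ y) * h1
    · have : ρ y = 0 := image_eq_zero_of_notMem_tsupport hy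
      rw [this]
      ring
  refine (congrArg lam key).trans ?_
  simp only [map_sub, map_mul, map_add, map_sum, map_smul]


/-- the compactness lemma -/
theorem cpt {Y : Type*} [TopologicalSpace Y] [CompactSpace Y] [T2Space Y] {τ : Type*}
    [TopologicalSpace τ] {J : Type*} [Fintype J] (e : J → C(Y, ℂ)) (he : ∀ j y, ‖e j y‖ ≤ 1)
    (a b : τ → J → ℂ) (ha : Continuous a) (hb : Continuous b) {Q : Set τ} (hQ : IsCompact Q)
    (ψ : C(Y, ℂ)) (hden : ∀ T ∈ Q, ∀ y ∈ tsupport ψ, ∑ j, b T j * e j y ≠ 0) :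
    ∃ C : ℝ, 0 ≤ C ∧ ∀ (K : Type) [NormedAddCommGroup K] [InnerProductSpace ℂ K]
      [CompleteSpace K] (lam : C(Y, ℂ) →⋆ₐ[ℂ] (K →L[ℂ] K)) (ι : Type) (S : Finset ι) (T : ι → τ)
      (F : ι → C(Y, ℂ)), (∀ k ∈ S, T k ∈ Q) →
      (∀ k ∈ S, ∀ y, F k y * ∑ j, b (T k) j * e j y = ψ y * ∑ j, a (T k) j * e j y) →
      (∀ k ∈ S, ∀ y, ψ y = 0 → F k y = 0) →
      Mult S (fun k => lam (F k)) C := by
  classical
  let p : Set τ → Prop := fun s => ∃ C : ℝ, 0 ≤ C ∧ ∀ (K : Type) [NormedAddCommGroup K]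
      [InnerProductSpace ℂ K] [CompleteSpace K] (lam : C(Y, ℂ) →⋆ₐ[ℂ] (K →L[ℂ] K)) (ι : Type)
      (S : Finset ι) (T : ι → τ) (F : ι → C(Y, ℂ)), (∀ k ∈ S, T k ∈ s) →
      (∀ k ∈ S, ∀ y, F k y * ∑ j, b (T k) j * e j y = ψ y * ∑ j, a (T k) j * e j y) →
      (∀ k ∈ S, ∀ y, ψ y = 0 → F k y = 0) →
      Mult S (fun k => lam (F k)) C
  have main : p Q := by
    refine hQ.induction_on ?_ ?_ ?_ ?_
    · refine ⟨0, le_rfl, ?_⟩
      intro K _ _ _ lam ι S T F hT _ _
      have : S = ∅ := by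
        rw [Finset.eq_empty_iff_forall_notMem]
        exact fun k hk => (hT k hk).elim
      subst this
      exact ⟨le_rfl, fun B c hc hB x => by simp⟩
    · rintro s t hst ⟨C, hC, h⟩
      exact ⟨C, hC, fun K _ _ _ lam ι S T F hT => h K lam ι S T F fun k hk => hst (hT k hk)⟩
    · rintro s t ⟨C, hC, h⟩ ⟨D, hD, h'⟩
      refine ⟨C + D, by positivity, ?_⟩
      intro K _ _ _ lam ι S T F hT hF h0
      have h1 := h K lam ι (S.filter fun k => T k ∈ s) T F
        (fun k hk => (Finset.mem_filter.1 hk).2) (fun k hk => hF k (Finset.mem_filter.1 hk).1)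
        (fun k hk => h0 k (Finset.mem_filter.1 hk).1)
      have h2 := h' K lam ι (S.filter fun k => ¬ T k ∈ s) T F
        (fun k hk => (hT k (Finset.mem_filter.1 hk).1).resolve_left (Finset.mem_filter.1 hk).2)
        (fun k hk => hF k (Finset.mem_filter.1 hk).1)
        (fun k hk => h0 k (Finset.mem_filter.1 hk).1)
      refine ⟨by positivity, fun B c hc hB x => ?_⟩
      have hB1 : ∀ (q : ι → Prop) [DecidablePred q] x, ∑ k ∈ S.filter q, ‖B k x‖ ^ 2 ≤
          c * ‖x‖ ^ 2 := fun q _ x => le_trans (Finset.sum_le_sum_of_subset_of_nonneg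
            (Finset.filter_subset _ _) (fun _ _ _ => by positivity)) (hB x)
      rw [← Finset.sum_filter_add_sum_filter_not S (fun k => T k ∈ s)]
      have e1 := h1.2 B c hc (hB1 _) x
      have e2 := h2.2 B c hc (hB1 _) x
      have : c * C ^ 2 * ‖x‖ ^ 2 + c * D ^ 2 * ‖x‖ ^ 2 ≤ c * (C + D) ^ 2 * ‖x‖ ^ 2 := by
        have : 0 ≤ c * (2 * C * D) * ‖x‖ ^ 2 := by positivity
        nlinarith
      linarith
    · intro T₀ hT₀
      -- finite cover of the support of ψ
      have hloc : ∀ y ∈ tsupport ψ, ∃ U ∈ 𝓝 T₀, ∃ V : Set Y, IsOpen V ∧ y ∈ V ∧ ∃ C : ℝ, 0 ≤ C ∧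
          ∀ (K : Type) [NormedAddCommGroup K] [InnerProductSpace ℂ K] [CompleteSpace K]
            (lam : C(Y, ℂ) →⋆ₐ[ℂ] (K →L[ℂ] K)) (ι : Type) (S : Finset ι) (T : ι → τ)
            (F : ι → C(Y, ℂ)) (ρ : C(Y, ℂ)), (∀ y, ‖ρ y‖ ≤ 1) → tsupport ρ ⊆ V →
            (∀ k ∈ S, T k ∈ U) →
            (∀ k ∈ S, ∀ y, F k y * ∑ j, b (T k) j * e j y = ψ y * ∑ j, a (T k) j * e j y) →
            Mult S (fun k => lam (F k * ρ)) C := fun y hy =>
        local_step e he a b ha hb ψ T₀ y (hden T₀ hT₀ y hy)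
      choose! U hU V hVo hyV C hC hM using hloc
      obtain ⟨t, ht, htc⟩ := (isClosed_tsupport (ψ : Y → ℂ)).isCompact.elim_nhds_subcover V
        (fun y hy => (hVo y hy).mem_nhds (hyV y hy))
      have hcov : tsupport (ψ : Y → ℂ) ⊆ ⋃ i : t, V i := by
        intro y hy
        have := htc hy
        simp only [mem_iUnion] at this ⊢
        obtain ⟨i, hi, hyi⟩ := this
        exact ⟨⟨i, hi⟩, hyi⟩
      obtain ⟨ρ, hρ⟩ := PartitionOfUnity.exists_isSubordinate_of_locallyFinite
        (isClosed_tsupport (ψ : Y → ℂ)) (fun i : t => V i) (fun i => hVo i (ht i i.2))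
        (locallyFinite_of_finite _) hcov
      let ρc : t → C(Y, ℂ) := fun i => ⟨fun y => (ρ i y : ℂ), by fun_prop⟩
      refine ⟨_, mem_nhdsWithin_of_mem_nhds ((Filter.biInter_finset_mem t).2
        fun i hi => hU i (ht i hi)), ∑ i : t, C i,
        Finset.sum_nonneg fun i _ => hC i (ht i i.2), ?_⟩
      intro K _ _ _ lam ι S T F hT hF h0
      have h1 : Mult S (fun k => ∑ i : t, lam (F k * ρc i)) (∑ i : t, C i) := by
        refine Mult.sum Finset.univ fun i _ => ?_
        refine hM i (ht i i.2) K lam ι S T F (ρc i) ?_ ?_ ?_ hF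
        · intro y
          simp only [ρc, ContinuousMap.coe_mk, Complex.norm_real, Real.norm_eq_abs]
          rw [abs_of_nonneg (ρ.nonneg i y)]
          exact ρ.le_one i y
        · refine Subset.trans ?_ (hρ i)
          refine closure_mono ?_
          intro y hy
          simp only [Function.mem_support, ρc, ContinuousMap.coe_mk, ne_eq,
            Complex.ofReal_eq_zero] at hy ⊢
          exact hy
        · intro k hk
          have := hT k hk
          simp only [mem_iInter] at this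
          exact this i i.2
      refine h1.congr fun k hk => ?_
      rw [← map_sum]
      congr 1
      ext y
      rw [ContinuousMap.coe_sum, Finset.sum_apply]
      by_cases hy : y ∈ tsupport (ψ : Y → ℂ)
      · have h2 : ∑ i : t, (ρ i y : ℂ) = 1 := by
          have := ρ.sum_eq_one hy
          rw [finsum_eq_sum_of_fintype] at this
          exact_mod_cast this
        calc ∑ i : t, (F k * ρc i) y = F k y * ∑ i : t, (ρ i y : ℂ) := by
              rw [Finset.mul_sum]
              rfl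
          _ = _ := by rw [h2, mul_one]
      · have : F k y = 0 := h0 k hk y (image_eq_zero_of_notMem_tsupport hy)
        rw [this]
        refine Finset.sum_eq_zero fun i _ => ?_
        rw [ContinuousMap.mul_apply, this, zero_mul]
  exact main

end Vale.Agent.P092.H890
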