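import Mathlib

/-!
P092, TEAM N (helper890): multipliers.

`Mult S X C`: the family `(X k)`, `k ∈ S`, maps square summable families to square summable
families: if `∑ ‖B k x‖² ≤ c ‖x‖²` for all `x`, then `∑ ‖B k (X k x)‖² ≤ c C² ‖x‖²`.
Multipliers form an algebra with a Banach algebra norm.
-/

set_option linter.all false

open scoped BigOperators Topology
open Filter

namespace Vale.Agent.P092.H890

variable {K : Type*} [NormedAddCommGroup K] [NormedSpace ℂ K] {ι : Type*}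

/-- `X` is a `C`-multiplier on `S` -/
def Mult (S : Finset ι) (X : ι → (K →L[ℂ] K)) (C : ℝ) : Prop :=
  0 ≤ C ∧ ∀ (B : ι → (K →L[ℂ] K)) (c : ℝ), 0 ≤ c →
    (∀ x, ∑ k ∈ S, ‖B k x‖ ^ 2 ≤ c * ‖x‖ ^ 2) →
    ∀ x, ∑ k ∈ S, ‖B k (X k x)‖ ^ 2 ≤ c * C ^ 2 * ‖x‖ ^ 2

namespace Mult

variable {S : Finset ι} {X Y Z : ι → (K →L[ℂ] K)} {C D : ℝ}

lemma mono (h : Mult S X C) (hCD : C ≤ D) : Mult S X D := by
  refine ⟨h.1.trans hCD, fun B c hc hB x => (h.2 B c hc hB x).trans ?_⟩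
  have := h.1
  gcongr

lemma congr (h : Mult S X C) (hXY : ∀ k ∈ S, X k = Y k) : Mult S Y C := by
  refine ⟨h.1, fun B c hc hB x => ?_⟩
  have e : ∑ k ∈ S, ‖B k (Y k x)‖ ^ 2 = ∑ k ∈ S, ‖B k (X k x)‖ ^ 2 :=
    Finset.sum_congr rfl fun k hk => by rw [hXY k hk]
  rw [e]
  exact h.2 B c hc hB x

lemma subset {S' : Finset ι} [DecidableEq ι] (h : Mult S X C) (hS : S' ⊆ S) : Mult S' X C := by
  refine ⟨h.1, fun B c hc hB x => ?_⟩
  have key : ∀ g : ι → K, ∑ k ∈ S, ‖(if k ∈ S' then B k else 0) (g k)‖ ^ 2 =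
      ∑ k ∈ S', ‖B k (g k)‖ ^ 2 := by
    intro g
    rw [← Finset.sum_subset hS]
    · exact Finset.sum_congr rfl fun k hk => by rw [if_pos hk]
    · intro k _ hk
      rw [if_neg hk]
      simp
  have := h.2 (fun k => if k ∈ S' then B k else 0) c hc (fun x => by
    rw [key (fun _ => x)]; exact hB x) x
  rwa [key (fun k => X k x)] at this

lemma scalar {a : ι → ℂ} (hC : 0 ≤ C) (ha : ∀ k ∈ S, ‖a k‖ ≤ C) :
    Mult S (fun k => a k • (1 : K →L[ℂ] K)) C := by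
  refine ⟨hC, fun B c hc hB x => ?_⟩
  calc ∑ k ∈ S, ‖B k ((a k • (1 : K →L[ℂ] K)) x)‖ ^ 2
      = ∑ k ∈ S, ‖a k‖ ^ 2 * ‖B k x‖ ^ 2 := by
        refine Finset.sum_congr rfl fun k _ => ?_
        simp [norm_smul, mul_pow]
    _ ≤ ∑ k ∈ S, C ^ 2 * ‖B k x‖ ^ 2 := by
        refine Finset.sum_le_sum fun k hk => ?_
        have := ha k hk
        gcongr
    _ = C ^ 2 * ∑ k ∈ S, ‖B k x‖ ^ 2 := by rw [Finset.mul_sum]
    _ ≤ C ^ 2 * (c * ‖x‖ ^ 2) := by gcongr; exact hB x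
    _ = _ := by ring

lemma const {T : K →L[ℂ] K} (hC : 0 ≤ C) (hT : ∀ x, ‖T x‖ ≤ C * ‖x‖) :
    Mult S (fun _ => T) C := by
  refine ⟨hC, fun B c hc hB x => (hB (T x)).trans ?_⟩
  calc c * ‖T x‖ ^ 2 ≤ c * (C * ‖x‖) ^ 2 := by gcongr; exact hT x
    _ = _ := by ring

lemma zero : Mult S (fun _ => (0 : K →L[ℂ] K)) 0 :=
  const le_rfl (by simp)

lemma mul (hX : Mult S X C) (hY : Mult S Y D) : Mult S (fun k => X k * Y k) (C * D) := by
  refine ⟨mul_nonneg hX.1 hY.1, fun B c hc hB x => ?_⟩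
  have h1 : ∀ x, ∑ k ∈ S, ‖(B k * X k) x‖ ^ 2 ≤ (c * C ^ 2) * ‖x‖ ^ 2 := fun x =>
    hX.2 B c hc hB x
  have := hY.2 (fun k => B k * X k) (c * C ^ 2) (by positivity) h1 x
  calc ∑ k ∈ S, ‖B k ((X k * Y k) x)‖ ^ 2 = ∑ k ∈ S, ‖(B k * X k) (Y k x)‖ ^ 2 := rfl
    _ ≤ _ := this
    _ = _ := by ring

/-- Minkowski -/
lemma mink {u v : ι → K} {a b : ℝ} (ha : 0 ≤ a) (hb : 0 ≤ b) (hu : ∑ k ∈ S, ‖u k‖ ^ 2 ≤ a ^ 2)
    (hv : ∑ k ∈ S, ‖v k‖ ^ 2 ≤ b ^ 2) : ∑ k ∈ S, ‖u k + v k‖ ^ 2 ≤ (a + b) ^ 2 := by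
  have h1 : (∑ k ∈ S, ‖u k‖ * ‖v k‖) ^ 2 ≤ (a * b) ^ 2 := by
    calc (∑ k ∈ S, ‖u k‖ * ‖v k‖) ^ 2 ≤ (∑ k ∈ S, ‖u k‖ ^ 2) * ∑ k ∈ S, ‖v k‖ ^ 2 :=
          Finset.sum_mul_sq_le_sq_mul_sq _ _ _
      _ ≤ a ^ 2 * b ^ 2 := by
          have : 0 ≤ ∑ k ∈ S, ‖v k‖ ^ 2 := Finset.sum_nonneg fun _ _ => by positivity
          gcongr
      _ = _ := by ring
  have h2 : ∑ k ∈ S, ‖u k‖ * ‖v k‖ ≤ a * b := abs_le_of_sq_le_sq' h1 (by positivity) |>.2
  calc ∑ k ∈ S, ‖u k + v k‖ ^ 2 ≤ ∑ k ∈ S, (‖u k‖ + ‖v k‖) ^ 2 := by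
        refine Finset.sum_le_sum fun k _ => ?_
        gcongr
        exact norm_add_le _ _
    _ = ∑ k ∈ S, ‖u k‖ ^ 2 + 2 * ∑ k ∈ S, ‖u k‖ * ‖v k‖ + ∑ k ∈ S, ‖v k‖ ^ 2 := by
        rw [Finset.mul_sum, ← Finset.sum_add_distrib, ← Finset.sum_add_distrib]
        exact Finset.sum_congr rfl fun _ _ => by ring
    _ ≤ a ^ 2 + 2 * (a * b) + b ^ 2 := by linarith
    _ = _ := by ring

lemma add (hX : Mult S X C) (hY : Mult S Y D) : Mult S (fun k => X k + Y k) (C + D) := by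
  refine ⟨add_nonneg hX.1 hY.1, fun B c hc hB x => ?_⟩
  have hC := hX.1
  have hD := hY.1
  have h := mink (S := S) (u := fun k => B k (X k x)) (v := fun k => B k (Y k x))
    (a := Real.sqrt c * C * ‖x‖) (b := Real.sqrt c * D * ‖x‖) (by positivity) (by positivity)
    (by
      refine (hX.2 B c hc hB x).trans (le_of_eq ?_)
      rw [mul_pow, mul_pow, Real.sq_sqrt hc])
    (by
      refine (hY.2 B c hc hB x).trans (le_of_eq ?_)
      rw [mul_pow, mul_pow, Real.sq_sqrt hc])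
  calc ∑ k ∈ S, ‖B k ((X k + Y k) x)‖ ^ 2 = ∑ k ∈ S, ‖B k (X k x) + B k (Y k x)‖ ^ 2 := by
        simp
    _ ≤ _ := h
    _ = Real.sqrt c ^ 2 * (C + D) ^ 2 * ‖x‖ ^ 2 := by ring
    _ = _ := by rw [Real.sq_sqrt hc]

lemma smul (hX : Mult S X C) {a : ι → ℂ} (hD : 0 ≤ D) (ha : ∀ k ∈ S, ‖a k‖ ≤ D) :
    Mult S (fun k => a k • X k) (D * C) := by
  have := (scalar (K := K) hD ha).mul hX
  simpa [smul_mul_assoc] using this

lemma neg (hX : Mult S X C) : Mult S (fun k => - X k) C := by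
  refine ⟨hX.1, fun B c hc hB x => ?_⟩
  simpa using hX.2 B c hc hB x

lemma sub (hX : Mult S X C) (hY : Mult S Y D) : Mult S (fun k => X k - Y k) (C + D) := by
  simpa [sub_eq_add_neg] using hX.add hY.neg

lemma sum {J : Type*} (s : Finset J) {X : J → ι → (K →L[ℂ] K)} {C : J → ℝ}
    (h : ∀ j ∈ s, Mult S (X j) (C j)) : Mult S (fun k => ∑ j ∈ s, X j k) (∑ j ∈ s, C j) := by
  classical
  induction s using Finset.induction_on with
  | empty => simpa using zero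
  | insert a s ha ih =>
    have h1 := (h a (Finset.mem_insert_self a s)).add
      (ih fun j hj => h j (Finset.mem_insert_of_mem hj))
    simpa [Finset.sum_insert ha] using h1

/-- a linear combination of fixed operators with scalar families as coefficients -/
lemma comb {J : Type*} (s : Finset J) {a : ι → J → ℂ} {A M : J → ℝ} {T : J → (K →L[ℂ] K)}
    (hA : ∀ j ∈ s, 0 ≤ A j) (ha : ∀ k ∈ S, ∀ j ∈ s, ‖a k j‖ ≤ A j) (hM : ∀ j ∈ s, 0 ≤ M j)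
    (hT : ∀ j ∈ s, ∀ x, ‖T j x‖ ≤ M j * ‖x‖) :
    Mult S (fun k => ∑ j ∈ s, a k j • T j) (∑ j ∈ s, A j * M j) :=
  sum s fun j hj => (const (hM j hj) (hT j hj)).smul (hA j hj) (fun k hk => ha k hk j hj)

lemma apriori (hD : 0 ≤ D) (hX : ∀ k ∈ S, ∀ x, ‖X k x‖ ≤ D * ‖x‖) :
    Mult S X (Real.sqrt S.card * D) := by
  refine ⟨by positivity, fun B c hc hB x => ?_⟩
  have h1 : ∀ k ∈ S, ∀ y, ‖B k y‖ ^ 2 ≤ c * ‖y‖ ^ 2 := by
    intro k hk y
    refine le_trans ?_ (hB y)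
    exact Finset.single_le_sum (f := fun k => ‖B k y‖ ^ 2) (fun _ _ => by positivity) hk
  calc ∑ k ∈ S, ‖B k (X k x)‖ ^ 2 ≤ ∑ k ∈ S, c * (D * ‖x‖) ^ 2 := by
        refine Finset.sum_le_sum fun k hk => (h1 k hk _).trans ?_
        gcongr
        exact hX k hk x
    _ = S.card * (c * (D * ‖x‖) ^ 2) := by rw [Finset.sum_const, nsmul_eq_mul]
    _ = _ := by rw [mul_pow (Real.sqrt S.card) D, Real.sq_sqrt (Nat.cast_nonneg _)]; ring

/-- closed under limits of the constant -/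
lemma of_tendsto {Cn : ℕ → ℝ} (h : ∀ n, Mult S X (Cn n)) (hl : Tendsto Cn atTop (𝓝 C)) :
    Mult S X C := by
  refine ⟨ge_of_tendsto' hl fun n => (h n).1, fun B c hc hB x => ?_⟩
  refine ge_of_tendsto' (((hl.pow 2).const_mul c).mul_const (‖x‖ ^ 2)) fun n => ?_
  exact (h n).2 B c hc hB x

/-- the bootstrap: `X = Z - X ε` with `ε` small -/
theorem boot {E : ι → (K →L[ℂ] K)} (hZ : Mult S Z C) (hE : Mult S E (1 / 2))
    (h : ∀ k ∈ S, X k = Z k - X k * E k) : Mult S X (2 * C) := by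
  have hC := hZ.1
  -- a priori bound
  obtain ⟨D, hD, hXD⟩ : ∃ D : ℝ, 0 ≤ D ∧ ∀ k ∈ S, ∀ x, ‖X k x‖ ≤ D * ‖x‖ := by
    refine ⟨∑ k ∈ S, ‖X k‖, Finset.sum_nonneg fun _ _ => norm_nonneg _, fun k hk x => ?_⟩
    refine ((X k).le_opNorm x).trans ?_
    gcongr
    exact Finset.single_le_sum (f := fun k => ‖X k‖) (fun _ _ => norm_nonneg _) hk
  have h0 := apriori hD hXD
  set C0 := Real.sqrt S.card * D with hC0
  have step : ∀ n : ℕ, Mult S X (2 * C + (C0 - 2 * C) * (1 / 2) ^ n) := by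
    intro n
    induction n with
    | zero => simpa using h0
    | succ n ih =>
      have h1 := (hZ.sub (ih.mul hE)).congr (Y := X) (fun k hk => (h k hk).symm)
      refine h1.mono (le_of_eq ?_)
      ring
  refine of_tendsto step ?_
  have : Tendsto (fun n : ℕ => (1 / 2 : ℝ) ^ n) atTop (𝓝 0) :=
    tendsto_pow_atTop_nhds_zero_of_lt_one (by norm_num) (by norm_num)
  simpa using (this.const_mul (C0 - 2 * C)).const_add (2 * C)

/-- The level lemma: `X k = ∑ Y k j`, `j ∈ W k`, where `Y k j` lives on the piece `p j`; the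
pieces are almost orthogonal and every `k` has at most `N` pieces. -/
theorem level {J : Type*} [DecidableEq J] (s : Finset J) (W : ι → Finset J)
    (hW : ∀ k ∈ S, W k ⊆ s) {N : ℝ} (hN : 0 ≤ N) (hcard : ∀ k ∈ S, ((W k).card : ℝ) ≤ N)
    {Y : ι → J → (K →L[ℂ] K)} {p : J → (K →L[ℂ] K)} {D : ℝ} (hD : 0 ≤ D)
    (hp : ∀ x, ∑ j ∈ s, ‖p j x‖ ^ 2 ≤ ‖x‖ ^ 2)
    (hYp : ∀ k ∈ S, ∀ j ∈ W k, Y k j * p j = Y k j)
    (hY : ∀ j ∈ s, Mult (S.filter fun k => j ∈ W k) (fun k => Y k j) D) :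
    Mult S (fun k => ∑ j ∈ W k, Y k j) (Real.sqrt N * D) := by
  classical
  refine ⟨by positivity, fun B c hc hB x => ?_⟩
  have hB' : ∀ j, ∀ x, ∑ k ∈ S.filter (fun k => j ∈ W k), ‖B k x‖ ^ 2 ≤ c * ‖x‖ ^ 2 := by
    intro j x
    refine le_trans ?_ (hB x)
    exact Finset.sum_le_sum_of_subset_of_nonneg (Finset.filter_subset _ _)
      (fun _ _ _ => by positivity)
  have h1 : ∀ k ∈ S, ‖B k ((∑ j ∈ W k, Y k j) x)‖ ^ 2 ≤
      N * ∑ j ∈ W k, ‖B k (Y k j (p j x))‖ ^ 2 := by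
    intro k hk
    have e : B k ((∑ j ∈ W k, Y k j) x) = ∑ j ∈ W k, B k (Y k j (p j x)) := by
      rw [ContinuousLinearMap.sum_apply, map_sum]
      refine Finset.sum_congr rfl fun j hj => ?_
      have := DFunLike.congr_fun (hYp k hk j hj) x
      exact congrArg (B k) this.symm
    rw [e]
    calc ‖∑ j ∈ W k, B k (Y k j (p j x))‖ ^ 2 ≤ (∑ j ∈ W k, ‖B k (Y k j (p j x))‖) ^ 2 := by
          gcongr
          exact norm_sum_le _ _
      _ ≤ (W k).card * ∑ j ∈ W k, ‖B k (Y k j (p j x))‖ ^ 2 := by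
          exact sq_sum_le_card_mul_sum_sq
      _ ≤ _ := by
          have := hcard k hk
          gcongr
  calc ∑ k ∈ S, ‖B k ((∑ j ∈ W k, Y k j) x)‖ ^ 2
      ≤ ∑ k ∈ S, N * ∑ j ∈ W k, ‖B k (Y k j (p j x))‖ ^ 2 := Finset.sum_le_sum h1
    _ = N * ∑ k ∈ S, ∑ j ∈ s, if j ∈ W k then ‖B k (Y k j (p j x))‖ ^ 2 else 0 := by
        rw [Finset.mul_sum]
        refine Finset.sum_congr rfl fun k hk => ?_
        congr 1
        rw [← Finset.sum_filter]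
        refine Finset.sum_congr ?_ fun _ _ => rfl
        ext j
        simp only [Finset.mem_filter]
        exact ⟨fun h => ⟨hW k hk h, h⟩, fun h => h.2⟩
    _ = N * ∑ j ∈ s, ∑ k ∈ S.filter (fun k => j ∈ W k), ‖B k (Y k j (p j x))‖ ^ 2 := by
        rw [Finset.sum_comm]
        congr 1
        refine Finset.sum_congr rfl fun j _ => ?_
        rw [← Finset.sum_filter]
    _ ≤ N * ∑ j ∈ s, c * D ^ 2 * ‖p j x‖ ^ 2 := by
        gcongr with j hj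
        exact (hY j hj).2 B c hc (hB' j) (p j x)
    _ = N * (c * D ^ 2) * ∑ j ∈ s, ‖p j x‖ ^ 2 := by rw [← Finset.mul_sum]; ring
    _ ≤ N * (c * D ^ 2) * ‖x‖ ^ 2 := by gcongr; exact hp x
    _ = _ := by rw [mul_pow, Real.sq_sqrt hN]; ring

end Mult

end Vale.Agent.P092.H890
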